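import Vale.Agent.P369.H809.Flow
import Vale.Agent.P369.Aniso.Ode
import Vale.Agent.P369.Aniso.Scalar2

/-!
P369 (helper326): the two isoperimetric inequalities as hypotheses, and the rate of the entropy.
-/

set_option linter.all false

namespace Vale.Agent.P369N

open MeasureTheory Set Filter
open Vale.Agent.P369 (Conf up down)
open Vale.Agent.P369A
open Vale.Agent.P369F (FXj Ppj GPath int_mono_w FXj_nonneg)
open scoped Topology ComplexOrder

noncomputable section

variable {n : ℕ}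

/-- the isoperimetric inequality of the amplifiers (cold side) -/
def IsoCold (X : Ker n) : Prop :=
  ∀ gp gm : Fin n → ℝ,
    (∀ j, Tendsto (fun Y => ∫ m in (0 : ℝ)..1, (1 - m) * FXj m X Y j) atTop (𝓝 (gp j))) →
    (∀ j, Tendsto (fun Y => ∫ m in (0 : ℝ)..1, m * FXj m X Y j) atTop (𝓝 (gm j))) →
    ∀ r : Fin n → ℝ, (∀ j, 0 < r j) →
      ∑ j, (P369.g (r j) - min (r j * (1 + gp j) - (r j + 1) * (1 - gm j))
        (cp (r j) * ((1 + gp j) - (r j + 1) * bb (r j)))) ≤ Sl X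

/-- the isoperimetric inequality of the losses (hot side) -/
def IsoHot (X : Ker n) : Prop :=
  ∀ gp gm : Fin n → ℝ,
    (∀ j, Tendsto (fun Y => ∫ m in (0 : ℝ)..1, (1 - m) * FXj m X Y j) atTop (𝓝 (gp j))) →
    (∀ j, Tendsto (fun Y => ∫ m in (0 : ℝ)..1, m * FXj m X Y j) atTop (𝓝 (gm j))) →
    ∀ r : Fin n → ℝ, (∀ j, 0 < r j) →
      ∑ j, (P369.g (r j) - min (r j * (1 + gp j) - (r j + 1) * (1 - gm j))
        (cm (r j) * (r j * bb (r j) - (1 - gm j)))) ≤ Sl X

/-- the rate is at least one mode's part minus a constant -/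
theorem rate_lower {X : Ker n} (hp : ∀ Y, (cut Y X).PosDef) {s : Fin n → ℝ} (hs : ∀ j, 0 < s j)
    (j0 : Fin n) (Y : ℕ) :
    s j0 * (∫ m in (0 : ℝ)..1, (1 - m) * FXj m X Y j0) +
        (s j0 + 1) * (∫ m in (0 : ℝ)..1, m * FXj m X Y j0) - ∑ j, (s j + 1) ≤
      ∑ j, (s j * Ppj X Y j + (s j + 1) * ((∫ m in (0 : ℝ)..1, m * FXj m X Y j) - 1)) := by
  have h1 : ∀ j, 0 ≤ s j * (∫ m in (0 : ℝ)..1, (1 - m) * FXj m X Y j) +
      (s j + 1) * (∫ m in (0 : ℝ)..1, m * FXj m X Y j) := fun j => by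
    have a1 : 0 ≤ ∫ m in (0 : ℝ)..1, (1 - m) * FXj m X Y j :=
      intervalIntegral.integral_nonneg zero_le_one fun m hm =>
        mul_nonneg (by linarith [hm.2]) (FXj_nonneg hp hm Y j)
    have a2 : 0 ≤ ∫ m in (0 : ℝ)..1, m * FXj m X Y j :=
      intervalIntegral.integral_nonneg zero_le_one fun m hm =>
        mul_nonneg hm.1 (FXj_nonneg hp hm Y j)
    have a3 := hs j
    positivity
  have h2 : s j0 * (∫ m in (0 : ℝ)..1, (1 - m) * FXj m X Y j0) +
      (s j0 + 1) * (∫ m in (0 : ℝ)..1, m * FXj m X Y j0) ≤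
      ∑ j, (s j * (∫ m in (0 : ℝ)..1, (1 - m) * FXj m X Y j) +
        (s j + 1) * (∫ m in (0 : ℝ)..1, m * FXj m X Y j)) :=
    Finset.single_le_sum (f := fun j => s j * (∫ m in (0 : ℝ)..1, (1 - m) * FXj m X Y j) +
        (s j + 1) * (∫ m in (0 : ℝ)..1, m * FXj m X Y j)) (fun j _ => h1 j) (Finset.mem_univ j0)
  have h3 : 0 ≤ trX X (Y + 1) :=
    Finset.sum_nonneg fun x _ => diag_nonneg_of_cut (fun X => (hp X).posSemidef) x.1
  have h4 : ∑ j, (s j * (∫ m in (0 : ℝ)..1, (1 - m) * FXj m X Y j) +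
        (s j + 1) * (∫ m in (0 : ℝ)..1, m * FXj m X Y j)) - ∑ j, (s j + 1) ≤
      ∑ j, (s j * Ppj X Y j + (s j + 1) * ((∫ m in (0 : ℝ)..1, m * FXj m X Y j) - 1)) := by
    rw [← Finset.sum_sub_distrib]
    refine Finset.sum_le_sum fun j _ => ?_
    unfold Ppj
    have h5 := mul_nonneg (hs j).le h3
    linarith
  linarith

/-- the rate is bounded below -/
theorem rate_ge {X : Ker n} (hp : ∀ Y, (cut Y X).PosDef) {s : Fin n → ℝ} (hs : ∀ j, 0 < s j)
    (Y : ℕ) :
    - ∑ j, (s j + 1) ≤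
      ∑ j, (s j * Ppj X Y j + (s j + 1) * ((∫ m in (0 : ℝ)..1, m * FXj m X Y j) - 1)) := by
  rw [← Finset.sum_neg_distrib]
  refine Finset.sum_le_sum fun j _ => ?_
  have a1 : 0 ≤ ∫ m in (0 : ℝ)..1, (1 - m) * FXj m X Y j :=
    intervalIntegral.integral_nonneg zero_le_one fun m hm =>
      mul_nonneg (by linarith [hm.2]) (FXj_nonneg hp hm Y j)
  have a2 : 0 ≤ ∫ m in (0 : ℝ)..1, m * FXj m X Y j :=
    intervalIntegral.integral_nonneg zero_le_one fun m hm =>
      mul_nonneg hm.1 (FXj_nonneg hp hm Y j)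
  have h3 : 0 ≤ trX X (Y + 1) :=
    Finset.sum_nonneg fun x _ => diag_nonneg_of_cut (fun X => (hp X).posSemidef) x.1
  have a4 : 0 ≤ Ppj X Y j := by
    unfold Ppj
    exact add_nonneg h3 a1
  have h5 := mul_nonneg (hs j).le a4
  have h6 := mul_nonneg (show (0 : ℝ) ≤ s j + 1 by linarith [hs j]) a2
  linarith

theorem iso_mono {X : Ker n} (hp : ∀ Y, (cut Y X).PosDef) (j : Fin n) :
    (Tendsto (fun Y => ∫ m in (0 : ℝ)..1, (1 - m) * FXj m X Y j) atTop atTop ∨
      ∃ l, Tendsto (fun Y => ∫ m in (0 : ℝ)..1, (1 - m) * FXj m X Y j) atTop (𝓝 l)) ∧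
    (Tendsto (fun Y => ∫ m in (0 : ℝ)..1, m * FXj m X Y j) atTop atTop ∨
      ∃ l, Tendsto (fun Y => ∫ m in (0 : ℝ)..1, m * FXj m X Y j) atTop (𝓝 l)) := by
  refine ⟨tendsto_atTop_of_monotone ?_, tendsto_atTop_of_monotone ?_⟩
  · exact int_mono_w hp (w := fun m => 1 - m) (by fun_prop) (fun m hm => by linarith [hm.2]) j
  · exact int_mono_w hp (w := fun m => m) (by fun_prop) (fun m hm => hm.1) j

/-- the entropy rate of the thermal semigroup is at least `n b(R) (N - R)` in the limit -/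
theorem rate_of_iso {X : Ker n} {E : ℝ} (hX : Reg X E) (hc : IsoCold X) (hh : IsoHot X)
    {s : Fin n → ℝ} (hs : ∀ j, 0 < s j) {R N : ℝ} (hR : 0 < R) (hN : 0 < N)
    (hS : Sl X = n * P369.g R) (hB : ∑ j, P369.g (s j) = n * P369.g N) {ε : ℝ} (hε : 0 < ε) :
    ∀ᶠ Y in atTop, n * (bb R * (N - R)) - ε ≤
      ∑ j, (s j * Ppj X Y j + (s j + 1) * ((∫ m in (0 : ℝ)..1, m * FXj m X Y j) - 1)) := by
  have hp := hX.pos
  by_cases hA : ∀ j, (∃ l, Tendsto (fun Y => ∫ m in (0 : ℝ)..1, (1 - m) * FXj m X Y j)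
      atTop (𝓝 l)) ∧ (∃ l, Tendsto (fun Y => ∫ m in (0 : ℝ)..1, m * FXj m X Y j) atTop (𝓝 l))
  · choose h1 h2 using hA
    choose gp hgp using h1
    choose gm hgm using h2
    have hlim : Tendsto (fun Y => ∑ j, (s j * Ppj X Y j +
        (s j + 1) * ((∫ m in (0 : ℝ)..1, m * FXj m X Y j) - 1))) atTop
        (𝓝 (∑ j, (s j * (1 + gp j) + (s j + 1) * (gm j - 1)))) := by
      refine tendsto_finsetSum _ fun j _ => ?_
      refine ((Tendsto.add ?_ (hgp j)).const_mul (s j)).add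
        (((hgm j).sub tendsto_const_nhds).const_mul (s j + 1))
      exact hX.tr.comp (tendsto_add_atTop_nat 1)
    have hfin : n * (bb R * (N - R)) ≤ ∑ j, (s j * (1 + gp j) + (s j + 1) * (gm j - 1)) := by
      have e : ∑ j, (s j * (1 + gp j) + (s j + 1) * (gm j - 1)) =
          ∑ j, (s j * (1 + gp j) - (s j + 1) * (1 - gm j)) :=
        Finset.sum_congr rfl fun j _ => by ring
      rw [e]
      rcases le_total R N with h | h
      · exact rate_bound_cold (h := fun j => 1 + gp j) (l := fun j => 1 - gm j) hs hR hN h hS hB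
          (hc gp gm hgp hgm)
      · exact rate_bound_hot (h := fun j => 1 + gp j) (l := fun j => 1 - gm j) hs hR hN h hS hB
          (hh gp gm hgp hgm)
    have h3 := hlim.eventually (eventually_gt_nhds (show n * (bb R * (N - R)) - ε <
      ∑ j, (s j * (1 + gp j) + (s j + 1) * (gm j - 1)) by linarith))
    filter_upwards [h3] with Y hY using hY.le
  · rw [not_forall] at hA
    obtain ⟨j0, hj0⟩ := hA
    obtain ⟨hm1, hm2⟩ := iso_mono hp j0
    have hs0 := hs j0
    have a1 : ∀ Y, 0 ≤ ∫ m in (0 : ℝ)..1, (1 - m) * FXj m X Y j0 := fun Y =>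
      intervalIntegral.integral_nonneg zero_le_one fun m hm =>
        mul_nonneg (by linarith [hm.2]) (FXj_nonneg hp hm Y j0)
    have a2 : ∀ Y, 0 ≤ ∫ m in (0 : ℝ)..1, m * FXj m X Y j0 := fun Y =>
      intervalIntegral.integral_nonneg zero_le_one fun m hm =>
        mul_nonneg hm.1 (FXj_nonneg hp hm Y j0)
    have key : ∀ᶠ Y in atTop, n * (bb R * (N - R)) - ε + ∑ j, (s j + 1) ≤
        s j0 * (∫ m in (0 : ℝ)..1, (1 - m) * FXj m X Y j0) +
        (s j0 + 1) * (∫ m in (0 : ℝ)..1, m * FXj m X Y j0) := by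
      rcases not_and_or.1 hj0 with h | h
      · have h1 := (hm1.resolve_right h).const_mul_atTop hs0
        filter_upwards [h1.eventually_ge_atTop (n * (bb R * (N - R)) - ε + ∑ j, (s j + 1))]
          with Y hY
        have h2 := mul_nonneg (show (0 : ℝ) ≤ s j0 + 1 by linarith) (a2 Y)
        linarith
      · have h1 := (hm2.resolve_right h).const_mul_atTop (show (0 : ℝ) < s j0 + 1 by linarith)
        filter_upwards [h1.eventually_ge_atTop (n * (bb R * (N - R)) - ε + ∑ j, (s j + 1))]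
          with Y hY
        have h2 := mul_nonneg hs0.le (a1 Y)
        linarith
    filter_upwards [key] with Y hY
    have h3 := rate_lower hp hs j0 Y
    linarith

end

end Vale.Agent.P369N
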