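import Vale.Agent.P369.H326.Phys8
import Vale.Agent.P369.H809.LossDefs
import Vale.Agent.P369.H400.VecDefs

/-!
The attenuator with a product of thermal environments is the vector amplifier after the vector
loss channel.
-/

namespace Vale.Agent.P369N

open Matrix Set Filter Topology
open scoped InnerProductSpace ComplexOrder
open Vale.Agent.P369 (Conf below mem_below)
open Vale.Agent.P369V (ent cv Cf)
open Vale.Agent.P369T
open Vale.Agent.P369A (Ct cut c1)
open Vale.Agent.P369F (lk lkV lossV lossK)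
open Vale.Agent.P369W (ccV ampV CkV)

noncomputable section

variable {n : ℕ}

theorem th_zero_left (b : ℕ) : th 0 b = if b = 0 then 1 else 0 := by
  unfold th
  rcases Nat.eq_zero_or_pos b with h | h
  · subst h; simp
  · rw [zero_pow h.ne', if_neg h.ne', zero_div]

theorem lk_eq_T1 {x : ℝ} (hx1 : x ≤ 1) (a b k k' : ℕ) : lk x a b k k' = T1 x 0 a b k k' := by
  unfold T1
  rw [tsum_eq_single 0]
  · rw [th_zero_left, if_pos rfl, one_mul, Nat.add_zero]
    unfold lk
    by_cases h : k + b = k' + a ∧ a ≤ k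
    · rw [if_pos h]
      obtain ⟨l, rfl⟩ : ∃ l, k = a + l := ⟨k - a, by omega⟩
      have e1 : k' = b + l := by omega
      subst e1
      have e2 : a + l - a = l := by omega
      rw [e2, P369V.g5_amp_vac, P369V.g5_amp_vac]
      have h2 : (-Real.sqrt (1 - x)) ^ l * (-Real.sqrt (1 - x)) ^ l = (1 - x) ^ l := by
        rw [← mul_pow, neg_mul_neg, Real.mul_self_sqrt (by linarith)]
      linear_combination -(Real.sqrt (((a + l).choose a : ℕ) : ℝ) *
        Real.sqrt (((b + l).choose b : ℕ) : ℝ) * Real.sqrt x ^ a * Real.sqrt x ^ b) * h2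
    · rw [if_neg h]
      by_cases h1 : a + (k - a) = k + 0
      · rw [P369.amp_hom _ _ b (k - a) k' 0 (by omega)]
        ring
      · rw [P369.amp_hom _ _ a (k - a) k 0 h1]
        ring
  · intro b' hb'
    rw [th_zero_left, if_neg hb', zero_mul]

/-- products of coefficients of the vector amplifier -/
theorem ccV_mul_ccV {κ : Fin n → ℝ} (hκ : ∀ j, 1 ≤ κ j) {x y l : Conf n} (hx : ∀ j, l j ≤ x j)
    (hy : ∀ j, l j ≤ y j) :
    ccV κ (x - l) l * ccV κ (y - l) l = ∏ j, AA (κ j) (x j) (y j) (l j) := by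
  unfold ccV
  rw [← Finset.prod_mul_distrib]
  refine Finset.prod_congr rfl fun j _ => ?_
  have h1κ := hκ j
  generalize κ j = k at h1κ
  have hκ0 : 0 < k := by linarith
  unfold AA c1
  simp only [Pi.sub_apply]
  rw [Nat.sub_add_cancel (hx j), Nat.sub_add_cancel (hy j)]
  have h1 : (k - 1) / k = 1 - 1 / k := by field_simp
  have h2 : Real.sqrt (1 - 1 / k) * Real.sqrt (1 - 1 / k) = 1 - 1 / k := by
    apply Real.mul_self_sqrt
    rw [sub_nonneg, div_le_one hκ0]
    exact h1κ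
  have h3 : (Real.sqrt k)⁻¹ * (Real.sqrt k)⁻¹ = k⁻¹ := by
    rw [← mul_inv, Real.mul_self_sqrt hκ0.le]
  rw [h1]
  have h4 : (1 - 1 / k) ^ (l j) = Real.sqrt (1 - 1 / k) ^ (l j) * Real.sqrt (1 - 1 / k) ^ (l j) := by
    rw [← mul_pow, h2]
  rw [h4, ← h3, pow_succ, pow_succ]
  ring

theorem prod_AA_eq_zero {κ : Fin n → ℝ} {x y l : Conf n} (hy : ¬ ∀ j, l j ≤ y j) :
    ∏ j, AA (κ j) (x j) (y j) (l j) = 0 := by
  push Not at hy
  obtain ⟨j, hj⟩ := hy
  apply Finset.prod_eq_zero (Finset.mem_univ j)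
  unfold AA
  rw [Nat.choose_eq_zero_of_lt hj]
  simp

theorem ampV_eq {κ : Fin n → ℝ} (hκ : ∀ j, 1 ≤ κ j) (s : Conf n → Conf n → ℂ) (x y : Conf n) :
    ampV κ s x y = ∑ i ∈ below x, ((∏ j, AA (κ j) (x j) (y j) (i j) : ℝ) : ℂ) *
      s (x - i) (y - i) := by
  unfold ampV
  have hsub : Finset.Iic (x ⊓ y) ⊆ below x := by
    intro l hl
    rw [Finset.mem_Iic] at hl
    rw [mem_below]
    exact fun j => (hl j).trans inf_le_left
  rw [← Finset.sum_subset hsub]
  · refine Finset.sum_congr rfl fun l hl => ?_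
    rw [Finset.mem_Iic] at hl
    rw [ccV_mul_ccV hκ (fun j => (hl j).trans inf_le_left) (fun j => (hl j).trans inf_le_right)]
  · intro l hl hl'
    rw [prod_AA_eq_zero, Complex.ofReal_zero, zero_mul]
    intro h
    apply hl'
    rw [Finset.mem_Iic]
    intro j
    exact le_inf (mem_below.mp hl j) (h j)

/-- gains of the decomposition -/
def kpv (η : ℝ) (s : Fin n → ℝ) (j : Fin n) : ℝ := kap η (s j)

/-- transmissivities of the decomposition -/
def xv (η : ℝ) (s : Fin n → ℝ) (j : Fin n) : ℝ := η / kap η (s j)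

theorem kpv_ge {η : ℝ} {s : Fin n → ℝ} (h1 : η ≤ 1) (hs : ∀ j, 0 ≤ s j) (j : Fin n) :
    1 ≤ kpv η s j := by
  unfold kpv kap
  have : 0 ≤ (1 - η) * s j := mul_nonneg (by linarith) (hs j)
  linarith

theorem kpv_gt {η : ℝ} {s : Fin n → ℝ} (h1 : η < 1) (hs : ∀ j, 0 < s j) (j : Fin n) :
    1 < kpv η s j := by
  unfold kpv kap
  have : 0 < (1 - η) * s j := mul_pos (by linarith) (hs j)
  linarith

theorem xv_mem {η : ℝ} {s : Fin n → ℝ} (h0 : 0 ≤ η) (h1 : η ≤ 1) (hs : ∀ j, 0 ≤ s j)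
    (j : Fin n) : 0 ≤ xv η s j ∧ xv η s j ≤ 1 := by
  have h2 := kpv_ge h1 hs j
  unfold kpv at h2
  have h3 : 0 < kap η (s j) := by linarith
  unfold xv
  refine ⟨div_nonneg h0 h3.le, ?_⟩
  rw [div_le_one h3]
  linarith

theorem Tv_eq {η : ℝ} {s : Fin n → ℝ} (h0 : 0 ≤ η) (h1 : η ≤ 1) (hs : ∀ j, 0 ≤ s j)
    (m m' k k' : Conf n) :
    Tv η s m m' k k' = ∑ i ∈ below m, (∏ j, AA (kpv η s j) (m j) (m' j) (i j)) *
      lkV (xv η s) (m - i) (m' - i) k k' := by
  unfold Tv lkV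
  rw [Finset.prod_congr rfl fun j _ => T1_eq_RR h0 h1 (hs j) (m j) (m' j) (k j) (k' j)]
  unfold RR
  rw [Finset.prod_univ_sum]
  apply Finset.sum_congr rfl
  intro i _
  rw [← Finset.prod_mul_distrib]
  refine Finset.prod_congr rfl fun j _ => ?_
  rw [lk_eq_T1 (xv_mem h0 h1 hs j).2]
  rfl

/-- the attenuator is the vector amplifier after the vector loss channel -/
theorem thE_eq {η : ℝ} {s : Fin n → ℝ} (h0 : 0 ≤ η) (h1 : η ≤ 1) (hs : ∀ j, 0 ≤ s j) {M : ℕ}
    (ρ : Matrix (Cf n M) (Cf n M) ℂ) :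
    thE η s ρ = CkV (lossV (xv η s) ρ) (kpv η s) := by
  funext x y
  unfold CkV
  rw [P369F.ext_lossV, ampV_eq (kpv_ge h1 hs)]
  unfold thE lossK
  simp only [Tv_eq h0 h1 hs]
  push_cast
  simp only [Finset.sum_mul, Finset.mul_sum]
  rw [Finset.sum_congr rfl fun k _ => Finset.sum_comm, Finset.sum_comm]
  refine Finset.sum_congr rfl fun i _ => Finset.sum_congr rfl fun k _ =>
    Finset.sum_congr rfl fun k' _ => ?_
  have : (cv k : Conf n) = P369A.te k := rfl
  rw [this]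
  have : (cv k' : Conf n) = P369A.te k' := rfl
  rw [this]
  ring

end

end Vale.Agent.P369N
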