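import Vale.Agent.P369.H326.Iso
import Vale.Agent.P369.H326.Phys9
import Vale.Agent.P369.H400.Mono

/-!
P369 (helper326): the finite-dimensional inequality from the path, the rate and the comparison
theorem.
-/

set_option linter.all false

namespace Vale.Agent.P369N

open Matrix MeasureTheory Set Filter
open Vale.Agent.P369 (Conf up down)
open Vale.Agent.P369V (ent cv Cf)
open Vale.Agent.P369A
open Vale.Agent.P369F (FXj Ppj GPath lk lkV lossV)
open Vale.Agent.P369W (CkV)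
open scoped Topology ComplexOrder

noncomputable section

variable {n M : ℕ}

/-- the path of states under the thermal attenuator semigroup -/
def thP (s : Fin n → ℝ) (ρ : Matrix (Fin n → Fin (M + 1)) (Fin n → Fin (M + 1)) ℂ) (t : ℝ) :
    Ker n :=
  CkV (lossV (xv (Real.exp (-t)) s) ρ) (kpv (Real.exp (-t)) s)

theorem thP_eq {s : Fin n → ℝ} (hs : ∀ j, 0 ≤ s j)
    (ρ : Matrix (Fin n → Fin (M + 1)) (Fin n → Fin (M + 1)) ℂ) {t : ℝ} (ht : 0 ≤ t) :
    thP s ρ t = thE (Real.exp (-t)) s ρ := by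
  rw [thE_eq (Real.exp_pos _).le (Real.exp_le_one_iff.2 (by linarith)) hs]
  rfl

theorem thP_zero {s : Fin n → ℝ} (hs : ∀ j, 0 ≤ s j)
    (ρ : Matrix (Fin n → Fin (M + 1)) (Fin n → Fin (M + 1)) ℂ) : thP s ρ 0 = ext ρ := by
  rw [thP_eq hs ρ le_rfl, neg_zero, Real.exp_zero]
  exact thE_one hs ρ

theorem continuous_lk (a b k k' : ℕ) : Continuous fun x => lk x a b k k' := by
  unfold lk
  by_cases h : k + b = k' + a ∧ a ≤ k
  · simp only [if_pos h]
    fun_prop
  · simp only [if_neg h]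
    exact continuous_const

theorem kpv_pos {s : Fin n → ℝ} (hs : ∀ j, 0 ≤ s j) {t : ℝ} (ht : 0 ≤ t) (j : Fin n) :
    0 < kpv (Real.exp (-t)) s j :=
  lt_of_lt_of_le one_pos (kpv_ge (Real.exp_le_one_iff.2 (by linarith)) hs j)

theorem thP_cont {s : Fin n → ℝ} (hs : ∀ j, 0 ≤ s j)
    (ρ : Matrix (Fin n → Fin (M + 1)) (Fin n → Fin (M + 1)) ℂ) (x y : Conf n) :
    ContinuousOn (fun t => thP s ρ t x y) (Ici 0) := by
  have hk : ∀ j, ContinuousOn (fun t : ℝ => kpv (Real.exp (-t)) s j) (Ici 0) := fun j => by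
    unfold kpv P369T.kap
    fun_prop
  refine P369W.continuousOn_CkV_comp2 (k := fun t => kpv (Real.exp (-t)) s)
    (fun t ht j => kpv_pos hs ht j) hk (fun a b => ?_) x y
  unfold lossV
  refine continuousOn_finsetSum _ fun m _ => continuousOn_finsetSum _ fun m' _ => ?_
  refine ContinuousOn.mul ?_ continuousOn_const
  refine Complex.continuous_ofReal.comp_continuousOn ?_
  unfold lkV
  refine continuousOn_finsetProd _ fun j _ => ?_
  refine (continuous_lk _ _ _ _).comp_continuousOn ?_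
  unfold xv
  refine ContinuousOn.div (by fun_prop) (hk j) fun t ht => (kpv_pos hs ht j).ne'

theorem thP_tendsto {s : Fin n → ℝ} (hs : ∀ j, 0 ≤ s j)
    (ρ : Matrix (Fin n → Fin (M + 1)) (Fin n → Fin (M + 1)) ℂ) (x y : Conf n) :
    Tendsto (fun t => thP s ρ t x y) (𝓝[>] 0) (𝓝 (ext ρ x y)) := by
  have h := (thP_cont hs ρ x y 0 self_mem_Ici)
  have h2 : Tendsto (fun t => thP s ρ t x y) (𝓝[>] 0) (𝓝 (thP s ρ 0 x y)) :=
    h.mono_left (nhdsWithin_mono _ Ioi_subset_Ici_self)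
  rwa [thP_zero hs] at h2

theorem g_pos_of_pos {x : ℝ} (hx : 0 < x) : 0 < P369.g x := by
  have h := P369.g_strictMono (Set.mem_Ici.2 le_rfl) (Set.mem_Ici.2 hx.le) hx
  rwa [P369.g_zero] at h

/-- amplified states have positive entropy -/
theorem Sl_CkV_pos (hn : 1 ≤ n) {ρ : Matrix (Fin n → Fin (M + 1)) (Fin n → Fin (M + 1)) ℂ}
    (hρ : ρ.PosDef) (ht : ρ.trace = 1) {k : Fin n → ℝ} (hk : ∀ j, 1 < k j) :
    0 < Sl (CkV ρ k) := by
  haveI : Nonempty (Fin n) := ⟨⟨0, hn⟩⟩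
  obtain ⟨j0, hj0⟩ := Finite.exists_min k
  have hn0 : (0 : ℝ) < n := by exact_mod_cast hn
  have h1 := P369W.Sl_CkV_mono hρ ht (k := fun _ => k j0) (k₂ := k) (fun _ => hk j0) hj0
  rw [P369W.CkV_const] at h1
  have h2 : P369.g 0 ≤ ent ρ / n := by
    rw [P369.g_zero]
    exact div_nonneg (P369V.ent_nonneg hρ.posSemidef ht) hn0.le
  have h3 := amp_Sl hn hρ ht le_rfl h2 (hk j0).le
  have h4 : 0 < P369.g (k j0 * (0 + 1) - 1) := g_pos_of_pos (by linarith [hk j0])
  have h5 := h4.trans_le h3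
  have h6 : 0 < Sl (Ck ρ (k j0)) := by
    rcases (div_pos_iff.1 h5) with h | h
    · exact h.1
    · exact absurd h.2 (by linarith)
  exact h6.trans_le h1

/-- the finite-dimensional entropy inequality, in terms of `Sl` -/
theorem fd_main (hn : 1 ≤ n) {ρ : Matrix (Fin n → Fin (M + 1)) (Fin n → Fin (M + 1)) ℂ}
    (hρ : ρ.PosDef) (ht : ρ.trace = 1) {s : Fin n → ℝ} (hs : ∀ j, 0 < s j)
    (hloss : ∀ x : Fin n → ℝ, (∀ j, 0 < x j ∧ x j ≤ 1) →
      (lossV x ρ).PosDef ∧ (lossV x ρ).trace = 1)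
    (hpath : ∀ a b, 0 < a → a ≤ b → ∃ E,
      GPath (thP s ρ) (fun j _ => s j) (fun j _ => s j + 1) a b E)
    (hcold : ∀ t, 0 < t → IsoCold (thP s ρ t)) (hhot : ∀ t, 0 < t → IsoHot (thP s ρ t))
    {N NB : ℝ} (hN : 0 ≤ N) (hg : P369.g N ≤ ent ρ / n) (hNB : 0 ≤ NB)
    (hB : ∑ j, P369.g (s j) = n * P369.g NB) {η : ℝ} (h0 : 0 < η) (h1 : η < 1) :
    n * P369.g (η * N + (1 - η) * NB) ≤ Sl (thE η s ρ) := by
  haveI : Nonempty (Fin n) := ⟨⟨0, hn⟩⟩
  have hn0 : (0 : ℝ) < n := by exact_mod_cast hn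
  have hs0 : ∀ j, 0 ≤ s j := fun j => (hs j).le
  have hNB0 : 0 < NB := by
    rcases hNB.eq_or_lt with h | h
    · exfalso
      rw [← h, P369.g_zero, mul_zero] at hB
      have : 0 < ∑ j, P369.g (s j) :=
        Finset.sum_pos (fun j _ => g_pos_of_pos (hs j)) Finset.univ_nonempty
      linarith
    · exact h
  -- parameters of the path
  have hx : ∀ t, ∀ j, 0 < t → 0 < xv (Real.exp (-t)) s j ∧ xv (Real.exp (-t)) s j ≤ 1 := by
    intro t j h
    refine ⟨?_, (xv_mem (Real.exp_pos _).le (Real.exp_le_one_iff.2 (by linarith)) hs0 j).2⟩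
    exact div_pos (Real.exp_pos _) (kpv_pos hs0 h.le j)
  have hk : ∀ t, ∀ j, 0 < t → 1 < kpv (Real.exp (-t)) s j := fun t j h =>
    kpv_gt (Real.exp_lt_one_iff.2 (by linarith)) hs j
  have hreg : ∀ t, 0 < t → ∃ E, Reg (thP s ρ t) E := fun t h => by
    obtain ⟨a1, a2⟩ := hloss _ (fun j => hx t j h)
    exact ⟨_, P369W.reg_CkV a1 a2 (fun j => hk t j h)⟩
  have hSpos : ∀ t, 0 < t → 0 < Sl (thP s ρ t) := fun t h => by
    obtain ⟨a1, a2⟩ := hloss _ (fun j => hx t j h)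
    exact Sl_CkV_pos hn a1 a2 (fun j => hk t j h)
  have hex : ∀ t, ∃ R, 0 ≤ R ∧ (0 < t → 0 < R ∧ Sl (thP s ρ t) = n * P369.g R) := by
    intro t
    by_cases h : 0 < t
    · obtain ⟨R, hR, hgR⟩ := P369.exists_g (y := Sl (thP s ρ t) / n)
        (div_nonneg (hSpos t h).le hn0.le)
      have hR' : (0 : ℝ) ≤ R := hR
      have e : Sl (thP s ρ t) = n * P369.g R := by
        rw [hgR]
        field_simp
      refine ⟨R, hR', fun _ => ⟨?_, e⟩⟩
      rcases hR'.eq_or_lt with h2 | h2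
      · exfalso
        rw [← h2, P369.g_zero, mul_zero] at e
        have := hSpos t h
        linarith
      · exact h2
    · exact ⟨0, le_rfl, fun h' => absurd h' h⟩
  choose R hR0 hR using hex
  -- the comparison on `[t0, T]`
  set T : ℝ := -Real.log η with hT
  have hTpos : 0 < T := by
    rw [hT]
    linarith [Real.log_neg h0 h1]
  have hexpT : Real.exp (-T) = η := by rw [hT, neg_neg, Real.exp_log h0]
  have hode : ∀ t0, 0 < t0 → t0 ≤ T → NB + Real.exp (-(T - t0)) * (R t0 - NB) ≤ R T := by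
    intro t0 ht0 htT
    obtain ⟨E, hE⟩ := hpath t0 T ht0 htT
    refine ode_block hn (S := fun t => Sl (thP s ρ t)) (R := R)
      (P := fun X t => GPath.rateX (thP s ρ) (fun j _ => s j) (fun j _ => s j + 1) X t)
      (C := ∑ j, (s j + 1)) htT hNB0
      (fun t h => (hR t (ht0.trans_le h.1)).1) (fun t h => (hR t (ht0.trans_le h.1)).2)
      (fun X => hE.cont_rateX X) ?_ ?_ ?_
    · intro X t h
      exact rate_ge (fun Y => hE.pos h Y) hs X
    · intro a b ha hab hb ε hε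
      obtain ⟨E', hE'⟩ := hpath a b (ht0.trans_le ha) hab
      refine Eventually.of_forall fun X => ?_
      have := hE'.flow_low hab X
      linarith
    · intro t h ε hε
      have h2 := ht0.trans_le h.1
      obtain ⟨E', hE'⟩ := hreg t h2
      exact rate_of_iso hE' (hcold t h2) (hhot t h2) hs (hR t h2).1 hNB0 (hR t h2).2 hB hε
  -- the starting value
  have hstart : ∀ δ > 0, ∀ᶠ t in 𝓝[>] (0 : ℝ), N - δ ≤ R t := by
    intro δ hδ
    by_cases hcase : N - δ ≤ 0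
    · exact Eventually.of_forall fun t => hcase.trans (hR0 t)
    · have hcase' : 0 < N - δ := not_le.1 hcase
      have hlt : P369.g (N - δ) < P369.g N :=
        P369.g_strictMono (Set.mem_Ici.2 hcase'.le) (Set.mem_Ici.2 hN) (by linarith)
      have hε : 0 < n * (P369.g N - P369.g (N - δ)) := mul_pos hn0 (by linarith)
      have h2 := P369W.ent_sub_le_Sl_of_tendsto (F := 𝓝[>] (0 : ℝ)) (s := thP s ρ)
        hρ.posSemidef ht
        (by filter_upwards [self_mem_nhdsWithin] with t h using hreg t h)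
        (fun x y => thP_tendsto hs0 ρ x y) hε
      filter_upwards [h2, self_mem_nhdsWithin] with t h3 h4
      have h5 : (0 : ℝ) < t := h4
      obtain ⟨h6, h7⟩ := hR t h5
      rw [h7] at h3
      rw [le_div_iff₀ hn0] at hg
      have h8 : n * P369.g (N - δ) ≤ n * P369.g (R t) := by nlinarith [h3, hg]
      exact g_mono_aux hcase' h6 (le_of_mul_le_mul_left h8 hn0)
  -- the limit `t0 → 0`
  have hfin : ∀ δ > 0, NB + Real.exp (-T) * (N - δ - NB) ≤ R T := by
    intro δ hδ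
    have h2 : Tendsto (fun t0 : ℝ => NB + Real.exp (-(T - t0)) * (N - δ - NB)) (𝓝[>] 0)
        (𝓝 (NB + Real.exp (-(T - 0)) * (N - δ - NB))) := by
      refine Tendsto.mono_left ?_ nhdsWithin_le_nhds
      refine Continuous.tendsto (by fun_prop) 0
    rw [sub_zero] at h2
    refine le_of_tendsto h2 ?_
    filter_upwards [hstart δ hδ, self_mem_nhdsWithin,
      nhdsWithin_le_nhds (Iic_mem_nhds hTpos)] with t0 a1 a2 a3
    have a4 := hode t0 a2 a3
    have a5 := mul_le_mul_of_nonneg_left a1 (Real.exp_pos (-(T - t0))).le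
    nlinarith [a4, a5]
  have hRT : η * N + (1 - η) * NB ≤ R T := by
    refine le_of_forall_pos_le_add fun δ hδ => ?_
    have h2 := hfin δ hδ
    rw [hexpT] at h2
    have h3 : η * δ ≤ δ := by nlinarith
    linarith
  have hTT := hR T hTpos
  have e : thE η s ρ = thP s ρ T := by
    rw [thP_eq hs0 ρ hTpos.le, hexpT]
  rw [e, hTT.2]
  refine mul_le_mul_of_nonneg_left ?_ hn0.le
  have hnn : 0 ≤ η * N + (1 - η) * NB := by
    have := mul_nonneg h0.le hN
    have := mul_nonneg (sub_nonneg.2 h1.le) hNB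
    linarith
  exact P369.g_strictMono.monotoneOn (Set.mem_Ici.2 hnn) (Set.mem_Ici.2 hTT.1.le) hRT

/-- the finite-dimensional block from the path and the two isoperimetric inequalities -/
theorem thFd_of_iso (hn : 1 ≤ n) {s : Fin n → ℝ} (hs : ∀ j, 0 < s j)
    (hloss : ∀ (M : ℕ) (ρ : Matrix (Fin n → Fin (M + 1)) (Fin n → Fin (M + 1)) ℂ), ρ.PosDef →
      ρ.trace = 1 → ∀ x : Fin n → ℝ, (∀ j, 0 < x j ∧ x j ≤ 1) →
      (lossV x ρ).PosDef ∧ (lossV x ρ).trace = 1)
    (hpath : ∀ (M : ℕ) (ρ : Matrix (Fin n → Fin (M + 1)) (Fin n → Fin (M + 1)) ℂ), ρ.PosDef →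
      ρ.trace = 1 → ∀ a b, 0 < a → a ≤ b → ∃ E,
      GPath (thP s ρ) (fun j _ => s j) (fun j _ => s j + 1) a b E)
    (hcold : ∀ (M : ℕ) (ρ : Matrix (Fin n → Fin (M + 1)) (Fin n → Fin (M + 1)) ℂ)
      (k : Fin n → ℝ), ρ.PosDef → ρ.trace = 1 → (∀ j, 1 < k j) → IsoCold (CkV ρ k))
    (hhot : ∀ (M : ℕ) (ρ : Matrix (Fin n → Fin (M + 1)) (Fin n → Fin (M + 1)) ℂ)
      (k : Fin n → ℝ), ρ.PosDef → ρ.trace = 1 → (∀ j, 1 < k j) → IsoHot (CkV ρ k))
    {η : ℝ} (h0 : 0 < η) (h1 : η < 1) : ThFd n η s := by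
  intro M ρ hρ ht N hN hg NB hNB hB ε hε
  have hs0 : ∀ j, 0 ≤ s j := fun j => (hs j).le
  have hx : ∀ t, ∀ j, 0 < t → 0 < xv (Real.exp (-t)) s j ∧ xv (Real.exp (-t)) s j ≤ 1 := by
    intro t j h
    refine ⟨?_, (xv_mem (Real.exp_pos _).le (Real.exp_le_one_iff.2 (by linarith)) hs0 j).2⟩
    exact div_pos (Real.exp_pos _) (kpv_pos hs0 h.le j)
  have hk : ∀ t, ∀ j, 0 < t → 1 < kpv (Real.exp (-t)) s j := fun t j h =>
    kpv_gt (Real.exp_lt_one_iff.2 (by linarith)) hs j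
  have hmain := fd_main hn hρ ht hs (hloss M ρ hρ ht) (hpath M ρ hρ ht)
    (fun t h => by
      obtain ⟨a1, a2⟩ := hloss M ρ hρ ht _ (fun j => hx t j h)
      exact hcold M _ _ a1 a2 (fun j => hk t j h))
    (fun t h => by
      obtain ⟨a1, a2⟩ := hloss M ρ hρ ht _ (fun j => hx t j h)
      exact hhot M _ _ a1 a2 (fun j => hk t j h)) hN hg hNB hB h0 h1
  -- regularity of the output
  have hxη : ∀ j, 0 < xv η s j ∧ xv η s j ≤ 1 := fun j =>
    ⟨div_pos h0 (lt_of_lt_of_le one_pos (kpv_ge h1.le hs0 j)), (xv_mem h0.le h1.le hs0 j).2⟩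
  obtain ⟨a1, a2⟩ := hloss M ρ hρ ht _ hxη
  have hreg := P369W.reg_CkV a1 a2 (fun j => kpv_gt h1 hs j)
  rw [← thE_eq h0.le h1.le hs0] at hreg
  have h3 := hreg.limit.eventually (eventually_gt_nhds (show Sl (thE η s ρ) - ε <
    Sl (thE η s ρ) by linarith))
  filter_upwards [h3] with X hX
  linarith

end

end Vale.Agent.P369N
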