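import Vale.Agent.P369.MathlibUsed

/-!
P369 (helper326): matrix elements of the one-mode displacement operator.
-/

set_option linter.all false

namespace Vale.Agent.P369N

noncomputable section

/-- matrix elements of the one-mode displacement operator: `dsp z b a = ⟨a| D(z) |b⟩` -/
def dsp (z : ℂ) : ℕ → ℕ → ℂ
  | 0 => fun a => ((Real.exp (-(‖z‖ ^ 2) / 2) : ℝ) : ℂ) * z ^ a / ((Real.sqrt (a.factorial) : ℝ) : ℂ)
  | b + 1 => fun a => (((Real.sqrt a : ℝ) : ℂ) * dsp z b (a - 1) -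
      (starRingEnd ℂ) z * dsp z b a) / ((Real.sqrt (b + 1) : ℝ) : ℂ)

theorem sq_ne (b : ℕ) : ((Real.sqrt ((b : ℝ) + 1) : ℝ) : ℂ) ≠ 0 := by
  have h : 0 < Real.sqrt ((b : ℝ) + 1) := Real.sqrt_pos.2 (by positivity)
  exact_mod_cast h.ne'

theorem sq_mul (b : ℕ) : ((Real.sqrt (b : ℝ) : ℝ) : ℂ) * ((Real.sqrt (b : ℝ) : ℝ) : ℂ) = (b : ℂ) := by
  rw [← Complex.ofReal_mul, Real.mul_self_sqrt (Nat.cast_nonneg b)]
  simp

theorem sq_mul' (b : ℕ) :
    ((Real.sqrt ((b : ℝ) + 1) : ℝ) : ℂ) * ((Real.sqrt ((b : ℝ) + 1) : ℝ) : ℂ) = (b : ℂ) + 1 := by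
  rw [← Complex.ofReal_mul, Real.mul_self_sqrt (by positivity)]
  simp

theorem dsp_zero (z : ℂ) (a : ℕ) : dsp z 0 a =
    ((Real.exp (-(‖z‖ ^ 2) / 2) : ℝ) : ℂ) * z ^ a / ((Real.sqrt (a.factorial) : ℝ) : ℂ) := rfl

theorem dsp_succ (z : ℂ) (b a : ℕ) : ((Real.sqrt ((b : ℝ) + 1) : ℝ) : ℂ) * dsp z (b + 1) a =
    ((Real.sqrt a : ℝ) : ℂ) * dsp z b (a - 1) - (starRingEnd ℂ) z * dsp z b a := by
  have h : dsp z (b + 1) a = (((Real.sqrt a : ℝ) : ℂ) * dsp z b (a - 1) -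
      (starRingEnd ℂ) z * dsp z b a) / ((Real.sqrt (b + 1) : ℝ) : ℂ) := rfl
  rw [h, mul_div_cancel₀ _ (sq_ne b)]

theorem dsp_up (z : ℂ) (b a : ℕ) : ((Real.sqrt ((a : ℝ) + 1) : ℝ) : ℂ) * dsp z b (a + 1) =
    ((Real.sqrt b : ℝ) : ℂ) * dsp z (b - 1) a + z * dsp z b a := by
  induction b generalizing a with
  | zero =>
    rw [dsp_zero, dsp_zero]
    have h1 : Real.sqrt ((a + 1).factorial : ℝ) = Real.sqrt ((a : ℝ) + 1) *
        Real.sqrt (a.factorial : ℝ) := by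
      rw [← Real.sqrt_mul (by positivity), Nat.factorial_succ]
      push_cast
      rfl
    have h2 : ((Real.sqrt (a.factorial : ℝ) : ℝ) : ℂ) ≠ 0 := by
      have : 0 < Real.sqrt (a.factorial : ℝ) :=
        Real.sqrt_pos.2 (by exact_mod_cast Nat.factorial_pos a)
      exact_mod_cast this.ne'
    rw [h1]
    have h3 := sq_ne a
    simp only [Nat.cast_zero, Real.sqrt_zero, Complex.ofReal_zero, zero_mul, zero_add,
      Complex.ofReal_mul]
    field_simp
    ring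
  | succ b ih =>
    have h3 := sq_ne b
    apply mul_left_cancel₀ h3
    have e1 := dsp_succ z b (a + 1)
    have e2 := dsp_succ z b a
    have e3 := ih a
    rw [Nat.add_sub_cancel] at e1 ⊢
    push_cast at e1 e2 e3 ⊢
    have q1 := sq_mul' a
    have q2 := sq_mul' b
    -- the identity (*)
    have key : (a : ℂ) * dsp z b a - (starRingEnd ℂ) z * (((Real.sqrt b : ℝ) : ℂ) * dsp z (b - 1) a) =
        (b : ℂ) * dsp z b a + z * (((Real.sqrt a : ℝ) : ℂ) * dsp z b (a - 1)) := by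
      have kb : (b : ℂ) * dsp z b a = ((Real.sqrt b : ℝ) : ℂ) * (((Real.sqrt a : ℝ) : ℂ) *
          dsp z (b - 1) (a - 1) - (starRingEnd ℂ) z * dsp z (b - 1) a) := by
        rcases b with _ | b
        · simp
        · have h := dsp_succ z b a
          rw [Nat.add_sub_cancel]
          rw [← h, ← mul_assoc]
          congr 1
          have := sq_mul (b + 1)
          push_cast at this ⊢
          rw [this]
      have ka : (a : ℂ) * dsp z b a = ((Real.sqrt a : ℝ) : ℂ) * (((Real.sqrt b : ℝ) : ℂ) *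
          dsp z (b - 1) (a - 1) + z * dsp z b (a - 1)) := by
        rcases a with _ | a
        · simp
        · have h := ih a
          rw [Nat.add_sub_cancel, ← h, ← mul_assoc]
          congr 1
          have := sq_mul (a + 1)
          push_cast at this ⊢
          rw [this]
      rw [kb, ka]
      ring
    calc ((Real.sqrt ((b : ℝ) + 1) : ℝ) : ℂ) * (((Real.sqrt ((a : ℝ) + 1) : ℝ) : ℂ) *
          dsp z (b + 1) (a + 1))
        = ((Real.sqrt ((a : ℝ) + 1) : ℝ) : ℂ) * (((Real.sqrt ((b : ℝ) + 1) : ℝ) : ℂ) *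
          dsp z (b + 1) (a + 1)) := by ring
      _ = ((Real.sqrt ((a : ℝ) + 1) : ℝ) : ℂ) * (((Real.sqrt ((a : ℝ) + 1) : ℝ) : ℂ) *
          dsp z b a - (starRingEnd ℂ) z * dsp z b (a + 1)) := by rw [e1]
      _ = ((a : ℂ) + 1) * dsp z b a - (starRingEnd ℂ) z * (((Real.sqrt ((a : ℝ) + 1) : ℝ) : ℂ) *
          dsp z b (a + 1)) := by rw [← q1]; ring
      _ = ((a : ℂ) + 1) * dsp z b a - (starRingEnd ℂ) z * (((Real.sqrt b : ℝ) : ℂ) *
          dsp z (b - 1) a + z * dsp z b a) := by rw [e3]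
      _ = ((b : ℂ) + 1) * dsp z b a + z * (((Real.sqrt a : ℝ) : ℂ) * dsp z b (a - 1) -
          (starRingEnd ℂ) z * dsp z b a) := by linear_combination key
      _ = _ := by rw [← e2, ← q2]; ring

/-- `D(z)† = D(-z)` -/
theorem dsp_conj (z : ℂ) (b a : ℕ) : (starRingEnd ℂ) (dsp (-z) a b) = dsp z b a := by
  induction b generalizing a with
  | zero =>
    induction a with
    | zero =>
      rw [dsp_zero, dsp_zero, norm_neg]
      simp only [pow_zero, mul_one, map_div₀, Complex.conj_ofReal]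
    | succ a ih =>
      have h1 := dsp_succ (-z) a 0
      have h2 := dsp_up z 0 a
      simp only [Nat.cast_zero, Real.sqrt_zero, Complex.ofReal_zero, zero_mul, zero_sub,
        zero_add, map_neg, neg_mul, neg_neg] at h1 h2
      apply mul_left_cancel₀ (sq_ne a)
      have h3 := congrArg (starRingEnd ℂ) h1
      rw [map_mul, map_mul, Complex.conj_ofReal, Complex.conj_conj, ih] at h3
      rw [h2, h3]
  | succ b ih =>
    apply mul_left_cancel₀ (sq_ne b)
    rw [dsp_succ, ← ih, ← ih]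
    have h1 := congrArg (starRingEnd ℂ) (dsp_up (-z) a b)
    rw [map_mul, map_add, map_mul, map_mul, Complex.conj_ofReal, Complex.conj_ofReal,
      map_neg] at h1
    rw [h1]
    ring

theorem dsp_summable (z : ℂ) (b : ℕ) {c : ℝ} (hc : 0 ≤ c) :
    Summable fun a : ℕ => c ^ a * ‖dsp z b a‖ ^ 2 := by
  induction b generalizing c with
  | zero =>
    have h := (Real.summable_pow_div_factorial (c * ‖z‖ ^ 2)).mul_left
      (Real.exp (-(‖z‖ ^ 2) / 2) ^ 2)
    refine h.congr fun a => ?_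
    rw [dsp_zero, norm_div, norm_mul, norm_pow, Complex.norm_real, Complex.norm_real,
      Real.norm_of_nonneg (Real.exp_pos _).le, Real.norm_of_nonneg (Real.sqrt_nonneg _), div_pow,
      Real.sq_sqrt (Nat.cast_nonneg _)]
    ring
  | succ b ih =>
    have h1 : Summable fun a : ℕ => c ^ a * ((a : ℝ) * ‖dsp z b (a - 1)‖ ^ 2) := by
      rw [← summable_nat_add_iff 1]
      have h2 := (ih (c := 2 * c) (by positivity)).mul_left c
      refine Summable.of_nonneg_of_le (fun a => by positivity) (fun a => ?_) h2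
      rw [Nat.add_sub_cancel]
      have h3 : ((a + 1 : ℕ) : ℝ) ≤ 2 ^ a := by exact_mod_cast Nat.lt_two_pow_self
      have h4 : 0 ≤ c ^ (a + 1) * ‖dsp z b a‖ ^ 2 := by positivity
      calc c ^ (a + 1) * (((a + 1 : ℕ) : ℝ) * ‖dsp z b a‖ ^ 2)
          = (c ^ (a + 1) * ‖dsp z b a‖ ^ 2) * ((a + 1 : ℕ) : ℝ) := by ring
        _ ≤ (c ^ (a + 1) * ‖dsp z b a‖ ^ 2) * 2 ^ a := mul_le_mul_of_nonneg_left h3 h4
        _ = c * ((2 * c) ^ a * ‖dsp z b a‖ ^ 2) := by rw [mul_pow]; ring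
    have h5 := (h1.mul_left 2).add ((ih hc).mul_left (2 * ‖z‖ ^ 2))
    refine Summable.of_nonneg_of_le (fun a => by positivity) (fun a => ?_) h5
    have h6 : ‖dsp z (b + 1) a‖ ≤ Real.sqrt a * ‖dsp z b (a - 1)‖ + ‖z‖ * ‖dsp z b a‖ := by
      have e1 := congrArg norm (dsp_succ z b a)
      rw [norm_mul, Complex.norm_real, Real.norm_of_nonneg (Real.sqrt_nonneg _)] at e1
      have e2 : 1 ≤ Real.sqrt ((b : ℝ) + 1) := by
        rw [Real.one_le_sqrt]
        linarith [(Nat.cast_nonneg b : (0 : ℝ) ≤ b)]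
      have e3 : ‖dsp z (b + 1) a‖ ≤ Real.sqrt ((b : ℝ) + 1) * ‖dsp z (b + 1) a‖ :=
        le_mul_of_one_le_left (norm_nonneg _) e2
      refine (e3.trans_eq e1).trans ((norm_sub_le _ _).trans_eq ?_)
      rw [norm_mul, norm_mul, Complex.norm_real, Real.norm_of_nonneg (Real.sqrt_nonneg _),
        RCLike.norm_conj]
    have h7 : ‖dsp z (b + 1) a‖ ^ 2 ≤ 2 * ((a : ℝ) * ‖dsp z b (a - 1)‖ ^ 2) +
        2 * ‖z‖ ^ 2 * ‖dsp z b a‖ ^ 2 := by
      have e1 := pow_le_pow_left₀ (norm_nonneg _) h6 2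
      have e2 : (Real.sqrt a) ^ 2 = a := Real.sq_sqrt (Nat.cast_nonneg a)
      have e3 := add_sq_le (a := Real.sqrt a * ‖dsp z b (a - 1)‖) (b := ‖z‖ * ‖dsp z b a‖)
      rw [mul_pow, mul_pow, e2] at e3
      linarith
    have h8 := mul_le_mul_of_nonneg_left h7 (pow_nonneg hc a)
    refine h8.trans_eq ?_
    ring

theorem dsp_summable_mul (z : ℂ) (b b' : ℕ) {c : ℝ} (hc : 0 ≤ c) :
    Summable fun a : ℕ => c ^ a * (‖dsp z b a‖ * ‖dsp z b' a‖) := by
  refine Summable.of_nonneg_of_le (fun a => by positivity) (fun a => ?_)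
    ((dsp_summable z b hc).add (dsp_summable z b' hc))
  rw [← mul_add]
  refine mul_le_mul_of_nonneg_left ?_ (pow_nonneg hc a)
  nlinarith [sq_nonneg (‖dsp z b a‖ - ‖dsp z b' a‖), sq_nonneg (‖dsp z b a‖),
    sq_nonneg (‖dsp z b' a‖)]

theorem dsp_summable_inner (z : ℂ) (b b' : ℕ) :
    Summable fun a : ℕ => (starRingEnd ℂ) (dsp z b a) * dsp z b' a := by
  refine Summable.of_norm ?_
  refine (dsp_summable_mul z b b' (c := 1) zero_le_one).congr fun a => ?_
  rw [norm_mul, RCLike.norm_conj, one_pow, one_mul]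

theorem dsp_summable_shift (z : ℂ) (b b' : ℕ) :
    Summable fun a : ℕ => (starRingEnd ℂ) (dsp z b a) *
      (((Real.sqrt ((a : ℝ) + 1) : ℝ) : ℂ) * dsp z b' (a + 1)) := by
  have h : (fun a : ℕ => (starRingEnd ℂ) (dsp z b a) *
      (((Real.sqrt ((a : ℝ) + 1) : ℝ) : ℂ) * dsp z b' (a + 1))) = fun a =>
      ((Real.sqrt b' : ℝ) : ℂ) * ((starRingEnd ℂ) (dsp z b a) * dsp z (b' - 1) a) +
        z * ((starRingEnd ℂ) (dsp z b a) * dsp z b' a) := by
    funext a
    rw [dsp_up]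
    ring
  rw [h]
  exact ((dsp_summable_inner z b _).mul_left _).add ((dsp_summable_inner z b b').mul_left _)

/-- recursion of the inner products of the columns -/
theorem dsp_gram_succ (z : ℂ) (b b' : ℕ) : ((Real.sqrt ((b : ℝ) + 1) : ℝ) : ℂ) *
    (∑' a, (starRingEnd ℂ) (dsp z (b + 1) a) * dsp z b' a) =
    ((Real.sqrt b' : ℝ) : ℂ) * ∑' a, (starRingEnd ℂ) (dsp z b a) * dsp z (b' - 1) a := by
  have e1 : ∀ a, ((Real.sqrt ((b : ℝ) + 1) : ℝ) : ℂ) *
      ((starRingEnd ℂ) (dsp z (b + 1) a) * dsp z b' a) =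
      ((Real.sqrt a : ℝ) : ℂ) * ((starRingEnd ℂ) (dsp z b (a - 1)) * dsp z b' a) -
      z * ((starRingEnd ℂ) (dsp z b a) * dsp z b' a) := by
    intro a
    have h := congrArg (starRingEnd ℂ) (dsp_succ z b a)
    rw [map_mul, map_sub, map_mul, map_mul, Complex.conj_ofReal, Complex.conj_ofReal,
      Complex.conj_conj] at h
    rw [← mul_assoc, h]
    ring
  rw [← tsum_mul_left, tsum_congr e1]
  have hs1 := dsp_summable_inner z b b'
  have hsh : Summable fun a : ℕ =>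
      ((Real.sqrt a : ℝ) : ℂ) * ((starRingEnd ℂ) (dsp z b (a - 1)) * dsp z b' a) := by
    rw [← summable_nat_add_iff 1]
    refine (dsp_summable_shift z b b').congr fun a => ?_
    rw [Nat.add_sub_cancel]
    push_cast
    ring
  rw [hsh.tsum_sub (hs1.mul_left z), hsh.tsum_eq_zero_add]
  have e2 : ∀ a : ℕ, ((Real.sqrt ((a + 1 : ℕ) : ℝ) : ℝ) : ℂ) *
      ((starRingEnd ℂ) (dsp z b (a + 1 - 1)) * dsp z b' (a + 1)) =
      ((Real.sqrt b' : ℝ) : ℂ) * ((starRingEnd ℂ) (dsp z b a) * dsp z (b' - 1) a) +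
        z * ((starRingEnd ℂ) (dsp z b a) * dsp z b' a) := by
    intro a
    rw [Nat.add_sub_cancel]
    have h := dsp_up z b' a
    push_cast at h ⊢
    calc ((Real.sqrt ((a : ℝ) + 1) : ℝ) : ℂ) * ((starRingEnd ℂ) (dsp z b a) * dsp z b' (a + 1))
        = (starRingEnd ℂ) (dsp z b a) * (((Real.sqrt ((a : ℝ) + 1) : ℝ) : ℂ) *
            dsp z b' (a + 1)) := by ring
      _ = _ := by rw [h]; ring
  rw [tsum_congr e2, ((dsp_summable_inner z b (b' - 1)).mul_left _).tsum_add (hs1.mul_left z),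
    tsum_mul_left, tsum_mul_left]
  simp

theorem dsp_gram_zero (z : ℂ) : ∑' a, (starRingEnd ℂ) (dsp z 0 a) * dsp z 0 a = 1 := by
  have e1 : ∀ a, (starRingEnd ℂ) (dsp z 0 a) * dsp z 0 a =
      (((Real.exp (-(‖z‖ ^ 2) / 2)) ^ 2 * ((‖z‖ ^ 2) ^ a / (a.factorial : ℝ)) : ℝ) : ℂ) := by
    intro a
    rw [dsp_zero]
    have h1 : (starRingEnd ℂ) (((Real.exp (-(‖z‖ ^ 2) / 2) : ℝ) : ℂ) * z ^ a /
        ((Real.sqrt (a.factorial) : ℝ) : ℂ)) * (((Real.exp (-(‖z‖ ^ 2) / 2) : ℝ) : ℂ) * z ^ a /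
        ((Real.sqrt (a.factorial) : ℝ) : ℂ)) = ((‖((Real.exp (-(‖z‖ ^ 2) / 2) : ℝ) : ℂ) * z ^ a /
        ((Real.sqrt (a.factorial) : ℝ) : ℂ)‖ ^ 2 : ℝ) : ℂ) := by
      rw [mul_comm, Complex.mul_conj, Complex.normSq_eq_norm_sq]
    rw [h1]
    congr 1
    rw [norm_div, norm_mul, norm_pow, Complex.norm_real, Complex.norm_real,
      Real.norm_of_nonneg (Real.exp_pos _).le, Real.norm_of_nonneg (Real.sqrt_nonneg _), div_pow,
      Real.sq_sqrt (Nat.cast_nonneg _)]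
    ring
  rw [tsum_congr e1, ← Complex.ofReal_tsum, tsum_mul_left]
  have h2 : ∑' a : ℕ, (‖z‖ ^ 2) ^ a / (a.factorial : ℝ) = Real.exp (‖z‖ ^ 2) := by
    rw [Real.exp_eq_exp_ℝ, NormedSpace.exp_eq_tsum_div]
  rw [h2, ← Real.exp_nat_mul, ← Real.exp_add]
  have : ((2 : ℕ) : ℝ) * (-(‖z‖ ^ 2) / 2) + ‖z‖ ^ 2 = 0 := by push_cast; ring
  rw [this, Real.exp_zero, Complex.ofReal_one]

theorem dsp_gram (z : ℂ) (b b' : ℕ) :
    ∑' a, (starRingEnd ℂ) (dsp z b a) * dsp z b' a = if b = b' then 1 else 0 := by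
  have h0 : ∀ b, ∑' a, (starRingEnd ℂ) (dsp z (b + 1) a) * dsp z 0 a = 0 := by
    intro b
    have h := dsp_gram_succ z b 0
    simp only [Nat.cast_zero, Real.sqrt_zero, Complex.ofReal_zero, zero_mul] at h
    exact (mul_eq_zero.1 h).resolve_left (sq_ne b)
  induction b generalizing b' with
  | zero =>
    rcases b' with _ | b'
    · rw [dsp_gram_zero, if_pos rfl]
    · rw [if_neg (by omega)]
      have h1 : ∀ a, (starRingEnd ℂ) (dsp z 0 a) * dsp z (b' + 1) a =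
          (starRingEnd ℂ) ((starRingEnd ℂ) (dsp z (b' + 1) a) * dsp z 0 a) := by
        intro a
        rw [map_mul, Complex.conj_conj]
        ring
      rw [tsum_congr h1, ← Complex.conj_tsum, h0, map_zero]
  | succ b ih =>
    rcases b' with _ | b'
    · rw [h0, if_neg (by omega)]
    · have h := dsp_gram_succ z b (b' + 1)
      rw [Nat.add_sub_cancel, ih b'] at h
      apply mul_left_cancel₀ (sq_ne b)
      rw [h]
      by_cases hb : b = b'
      · subst hb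
        rw [if_pos rfl, if_pos rfl]
        push_cast
        rfl
      · rw [if_neg hb, if_neg (by omega)]
        simp

/-- the columns are orthonormal -/
theorem dsp_col (z : ℂ) (b b' : ℕ) :
    HasSum (fun a => (starRingEnd ℂ) (dsp z b a) * dsp z b' a) (if b = b' then 1 else 0) := by
  rw [← dsp_gram z b b']
  exact (dsp_summable_inner z b b').hasSum

/-- the rows are orthonormal -/
theorem dsp_row (z : ℂ) (a a' : ℕ) :
    HasSum (fun b => dsp z b a * (starRingEnd ℂ) (dsp z b a')) (if a = a' then 1 else 0) := by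
  refine (dsp_col (-z) a a').congr_fun fun b => ?_
  rw [← dsp_conj z b a, ← dsp_conj z b a', Complex.conj_conj]

end

end Vale.Agent.P369N
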