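import Vale.Agent.P369.Bd3.B1

/-!
P369 (helper326): exchanging the two inputs of the beam splitter.
-/

set_option linter.all false

namespace Vale.Agent.P369N

open scoped InnerProductSpace
open Vale.Agent.P369 (Conf up down cj cj_apply cj_inner)
open Vale.Agent.P369.Sys

noncomputable section

/-- a unitary between two spaces from two number bases -/
theorem exists_basisMap {H H' : Type} [NormedAddCommGroup H] [InnerProductSpace ℂ H]
    [CompleteSpace H] [NormedAddCommGroup H'] [InnerProductSpace ℂ H'] [CompleteSpace H']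
    {ι : Type} [DecidableEq ι] {e : ι → H} {e' : ι → H'} (he : IsNumberBasis e)
    (he' : IsNumberBasis e') : ∃ T : H ≃ₗᵢ[ℂ] H', ∀ i, T (e i) = e' i := by
  obtain ⟨T1, h1⟩ := Vale.Agent.P369.exists_repr he
  obtain ⟨T2, h2⟩ := Vale.Agent.P369.exists_repr he'
  refine ⟨T1.trans T2.symm, fun i => ?_⟩
  change T2.symm (T1 (e i)) = e' i
  rw [h1, ← h2, T2.symm_apply_apply]

variable {n : ℕ} {H K : Type} [NormedAddCommGroup H] [InnerProductSpace ℂ H] [CompleteSpace H]
  [NormedAddCommGroup K] [InnerProductSpace ℂ K] [CompleteSpace K]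

theorem isNumberBasis_equiv {ι κ : Type} {e : ι → H} (he : IsNumberBasis e) (σ : κ ≃ ι) :
    IsNumberBasis fun i => e (σ i) := by
  refine ⟨he.1.comp σ σ.injective, ?_⟩
  have h : Set.range (fun i => e (σ i)) = Set.range e := by
    change Set.range (e ∘ σ) = _
    exact σ.surjective.range_comp e
  rw [h]
  exact he.2

theorem isNumberBasis_phase {ι : Type} {e : ι → H} (he : IsNumberBasis e) {c : ι → ℂ}
    (hc : ∀ i, ‖c i‖ = 1) : IsNumberBasis fun i => c i • e i := by
  refine ⟨⟨fun i => ?_, fun i j hij => ?_⟩, ?_⟩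
  · rw [norm_smul, hc, he.1.1 i, one_mul]
  · change ⟪c i • e i, c j • e j⟫_ℂ = 0
    rw [inner_smul_left, inner_smul_right, he.1.2 hij]
    simp
  · have h : Submodule.span ℂ (Set.range e) ≤ Submodule.span ℂ (Set.range fun i => c i • e i) := by
      rw [Submodule.span_le]
      rintro x ⟨i, rfl⟩
      have h1 : c i ≠ 0 := by
        intro h0
        have := hc i
        rw [h0, norm_zero] at this
        exact zero_ne_one this
      have h2 : e i = (c i)⁻¹ • (c i • e i) := by rw [smul_smul, inv_mul_cancel₀ h1, one_smul]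
      rw [h2]
      exact Submodule.smul_mem _ _ (Submodule.subset_span ⟨i, rfl⟩)
    exact he.2.mono h

/-- sign of a configuration -/
def sgn (l : Conf n) : ℂ := (-1) ^ (∑ j, l j)

theorem sgn_zero : sgn (0 : Conf n) = 1 := by simp [sgn]

theorem sgn_sq (l : Conf n) : sgn l * sgn l = 1 := by
  unfold sgn
  rw [← mul_pow]
  simp

theorem sgn_conj (l : Conf n) : (starRingEnd ℂ) (sgn l) = sgn l := by
  unfold sgn
  simp

theorem sgn_norm (l : Conf n) : ‖sgn l‖ = 1 := by
  unfold sgn
  simp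

theorem sgn_up (l : Conf n) (j : Fin n) : sgn (up l j) = -sgn l := by
  unfold sgn
  have h : ∑ i, up l j i = (∑ i, l i) + 1 := by
    unfold up
    rw [Finset.sum_update_of_mem (Finset.mem_univ j)]
    have h2 := Finset.add_sum_erase Finset.univ l (Finset.mem_univ j)
    rw [← h2, Finset.sdiff_singleton_eq_erase]
    ring
  rw [h, pow_succ]
  ring

/-- exchange of the two inputs -/
theorem isOutput_swap {η : ℝ} {e : Conf n → H} {f : Conf n → Conf n → K}
    (hf : IsNumberBasis fun x : Conf n × Conf n => f x.1 x.2) {ρA ρB ρC : H →L[ℂ] H}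
    (h : IsOutput η e f ρA ρB ρC) : IsOutput (1 - η) e f ρB ρA ρC := by
  obtain ⟨U, ρAB, ⟨hU0, hU⟩, hP, hM⟩ := h
  obtain ⟨W, hW'⟩ := exists_basisMap hf (isNumberBasis_equiv hf (Equiv.prodComm (Conf n) (Conf n)))
  have hW : ∀ k l, W (f k l) = f l k := fun k l => hW' (k, l)
  have hWs : ∀ k l, W.symm (f k l) = f l k := fun k l => by
    rw [← hW l k, W.symm_apply_apply]
  obtain ⟨P, hP2⟩ := exists_basisMap hf (isNumberBasis_phase hf
    (c := fun x : Conf n × Conf n => sgn x.2) (fun x => sgn_norm x.2))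
  have hPP : ∀ k l, P (f k l) = sgn l • f k l := fun k l => hP2 (k, l)
  have hPs : ∀ k l, P.symm (f k l) = sgn l • f k l := fun k l => by
    have h1 : f k l = P (sgn l • f k l) := by
      rw [map_smul, hPP, smul_smul, sgn_sq, one_smul]
    rw [h1, P.symm_apply_apply, ← h1]
  have hPi : ∀ k l y, ⟪f k l, P y⟫_ℂ = sgn l * ⟪f k l, y⟫_ℂ := fun k l y => by
    have h1 : f k l = P (P.symm (f k l)) := (P.apply_symm_apply _).symm
    rw [h1, P.inner_map_map, ← h1, hPs, inner_smul_left, sgn_conj]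
  have hWA : ∀ j k l, W (annA f j k l) = annB f j l k := fun j k l => by
    unfold annA annB
    rw [map_smul, hW]
  have hWB : ∀ j k l, W (annB f j k l) = annA f j l k := fun j k l => by
    unfold annA annB
    rw [map_smul, hW]
  have e1 : Real.sqrt (1 - (1 - η)) = Real.sqrt η := by
    congr 1
    ring
  refine ⟨W.trans (U.trans P), cj W.symm ρAB, ⟨?_, fun j k l k' l' => ⟨?_, ?_⟩⟩, ?_, ?_⟩
  · change P (U (W (f 0 0))) = f 0 0
    rw [hW, hU0, hPP, sgn_zero, one_smul]
  · change ⟪creA f j k' l', P (U (W (f k l)))⟫_ℂ = ⟪f k' l', P (U (W (_ + _)))⟫_ℂ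
    have h1 := (hU j l k k' l').1
    unfold creA at h1 ⊢
    rw [inner_smul_left] at h1 ⊢
    rw [hPi, hPi, hW, map_add, map_smul, map_smul, hWA, hWB, e1]
    rw [add_comm ((Real.sqrt (1 - η) : ℂ) • annB f j l k)]
    rw [← h1]
    ring
  · change ⟪creB f j k' l', P (U (W (f k l)))⟫_ℂ = ⟪f k' l', P (U (W (_ + _)))⟫_ℂ
    have h1 := (hU j l k k' l').2
    unfold creB at h1 ⊢
    rw [inner_smul_left] at h1 ⊢
    rw [hPi, hPi, hW, map_add, map_smul, map_smul, hWA, hWB, e1, sgn_up]
    have h2 : U (-(Real.sqrt η : ℂ) • annB f j l k + (Real.sqrt (1 - η) : ℂ) • annA f j l k) =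
        -U (-(Real.sqrt (1 - η) : ℂ) • annA f j l k + (Real.sqrt η : ℂ) • annB f j l k) := by
      rw [← map_neg]
      congr 1
      module
    rw [h2, inner_neg_right, ← h1]
    ring
  · intro k l k' l'
    have h1 := hP l k l' k'
    have h2 : ⟪f k l, cj W.symm ρAB (f k' l')⟫_ℂ = ⟪f l k, ρAB (f l' k')⟫_ℂ := by
      rw [← hWs l k, ← hWs l' k', cj_inner]
    rw [h2, h1]
    ring
  · intro m m'
    refine (hM m m').congr_fun fun l => ?_
    change ⟪f m l, P (U (W (W.symm (ρAB (W.symm.symm (W.symm (U.symm (P.symm (f m' l)))))))))⟫_ℂ = _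
    rw [W.apply_symm_apply, W.symm.symm_apply_apply, hPi, hPs, map_smul, map_smul, map_smul,
      inner_smul_right, ← mul_assoc, sgn_sq, one_mul]

end

end Vale.Agent.P369N
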