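import Vale.Agent.P369.H326.Fd
import Vale.Agent.P369.H326.Swap
import Vale.Agent.P369.H809.Deliver
import Vale.Agent.P369.G351.IsoCold

/-!
P369 (helper326): the entropy photon-number inequality when one of the inputs is a product of
thermal states of arbitrary different mean photon numbers, from the hot isoperimetric inequality.
-/

set_option linter.all false

namespace Vale.Agent.P369N

open Matrix MeasureTheory Set Filter
open Vale.Agent.P369 (Conf up down)
open Vale.Agent.P369.Sys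
open Vale.Agent.P369V (ent cv Cf)
open Vale.Agent.P369A
open Vale.Agent.P369F (lossV)
open Vale.Agent.P369W (CkV)
open scoped Topology ComplexOrder

noncomputable section

/-- the only remaining block: the hot isoperimetric inequality -/
def HotAll (n : ℕ) : Prop :=
  ∀ (M : ℕ) (ρ : Matrix (Fin n → Fin (M + 1)) (Fin n → Fin (M + 1)) ℂ)
    (k : Fin n → ℝ), ρ.PosDef → ρ.trace = 1 → (∀ j, 1 < k j) → IsoHot (CkV ρ k)

theorem thFd_of_hot {n : ℕ} (hn : 1 ≤ n) (hhot : HotAll n) {η : ℝ} (h0 : 0 < η) (h1 : η < 1)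
    {s : Fin n → ℝ} (hs : ∀ j, 0 < s j) : ThFd n η s :=
  thFd_of_iso hn hs (fun M ρ hρ ht x hx => P369F.hloss_deliver M ρ hρ ht x hx)
    (fun M ρ hρ ht a b ha hab => P369F.hpath_deliver hs M ρ hρ ht a b ha hab)
    (fun M ρ k hρ ht hk => P369G.isoCold_CkV hρ ht hk) hhot h0 h1

variable {n : ℕ} {H K : Type} [NormedAddCommGroup H] [InnerProductSpace ℂ H] [CompleteSpace H]
  [NormedAddCommGroup K] [InnerProductSpace ℂ K] [CompleteSpace K]

/-- the inequality with a product of thermal states as second input -/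
theorem epni_thermal_second (hn : 1 ≤ n) (hhot : HotAll n) {η : ℝ} (h0 : 0 ≤ η) (h1 : η ≤ 1)
    (e : Conf n → H) (he : IsNumberBasis e)
    (f : Conf n → Conf n → K) (hf : IsNumberBasis fun x : Conf n × Conf n => f x.1 x.2)
    (ρA ρB : H →L[ℂ] H) (hA : IsState e ρA) (eA : FiniteEnergy e ρA)
    {s : Fin n → ℝ} (hs : ∀ j, 0 ≤ s j)
    (hB : ∀ k, ρB (e k) = ((∏ j, s j ^ k j / (s j + 1) ^ (k j + 1) : ℝ) : ℂ) • e k) :
    (∃ ρC : H →L[ℂ] H, IsOutput η e f ρA ρB ρC) ∧
    ∀ ρC : H →L[ℂ] H, IsOutput η e f ρA ρB ρC → IsState e ρC ∧ FiniteEnergy e ρC ∧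
      η * photonNumber e ρA + (1 - η) * photonNumber e ρB ≤ photonNumber e ρC :=
  epni_thv hn (fun η h0 h1 s hs => thFd_of_hot hn hhot h0 h1 hs) h0 h1 e he f hf ρA ρB hA eA hs hB

/-- the inequality with a product of thermal states as first input -/
theorem epni_thermal_first (hn : 1 ≤ n) (hhot : HotAll n) {η : ℝ} (h0 : 0 ≤ η) (h1 : η ≤ 1)
    (e : Conf n → H) (he : IsNumberBasis e)
    (f : Conf n → Conf n → K) (hf : IsNumberBasis fun x : Conf n × Conf n => f x.1 x.2)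
    (ρA ρB : H →L[ℂ] H) (hB : IsState e ρB) (eB : FiniteEnergy e ρB)
    {s : Fin n → ℝ} (hs : ∀ j, 0 ≤ s j)
    (hA : ∀ k, ρA (e k) = ((∏ j, s j ^ k j / (s j + 1) ^ (k j + 1) : ℝ) : ℂ) • e k) :
    (∃ ρC : H →L[ℂ] H, IsOutput η e f ρA ρB ρC) ∧
    ∀ ρC : H →L[ℂ] H, IsOutput η e f ρA ρB ρC → IsState e ρC ∧ FiniteEnergy e ρC ∧
      η * photonNumber e ρA + (1 - η) * photonNumber e ρB ≤ photonNumber e ρC := by
  obtain ⟨⟨ρC, hC⟩, hall⟩ := epni_thermal_second hn hhot (η := 1 - η) (by linarith) (by linarith)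
    e he f hf ρB ρA hB eB hs hA
  refine ⟨⟨ρC, ?_⟩, fun ρ' h' => ?_⟩
  · have h := isOutput_swap hf hC
    rwa [show 1 - (1 - η) = η by ring] at h
  · obtain ⟨a1, a2, a3⟩ := hall ρ' (isOutput_swap hf h')
    refine ⟨a1, a2, ?_⟩
    rw [show 1 - (1 - η) = η by ring] at a3
    linarith

end

end Vale.Agent.P369N
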