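import Vale.Agent.P369.Bd3.B2

/-!
The output of the beam splitter when the second input is a product of thermal states of
different mean photon numbers: existence, state, energy, matrix elements.
-/

namespace Vale.Agent.P369N

open Vale.Agent.P369 (Conf)
open Vale.Agent.P369V
open Vale.Agent.P369T
open scoped InnerProductSpace

noncomputable section

variable {n : ℕ}

/-- product of thermal distributions of different mean photon numbers -/
def thv (s : Fin n → ℝ) (k : Conf n) : ℝ := ∏ j, th (s j) (k j)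

/-- the `n`-mode attenuator with a product of thermal environments, in matrix elements -/
def Tv (η : ℝ) (s : Fin n → ℝ) (m m' k k' : Conf n) : ℝ :=
  ∏ j, T1 η (s j) (m j) (m' j) (k j) (k' j)

theorem thv_isProb {s : Fin n → ℝ} (hs : ∀ j, 0 ≤ s j) : P369.IsProb (thv s) := by
  constructor
  · intro k
    exact Finset.prod_nonneg fun j _ => th_nonneg (hs j) (k j)
  · have := hasSum_pi_prod (n := n) (F := fun j => th (s j)) (a := fun _ => 1)
      (fun j => hasSum_th (hs j))
    simp only [Finset.prod_const_one] at this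
    exact this

theorem thv_energy {s : Fin n → ℝ} (hs : ∀ j, 0 ≤ s j) :
    Summable fun k : Conf n => (∑ j, (k j : ℝ)) * thv s k := by
  simp only [Finset.sum_mul]
  apply summable_sum
  intro j _
  have h : ∀ i : Fin n, HasSum (fun k : ℕ => if i = j then (k : ℝ) * th (s i) k else th (s i) k)
      (if i = j then ∑' k : ℕ, (k : ℝ) * th (s i) k else 1) := by
    intro i
    by_cases hi : i = j
    · simp only [hi, if_true]
      exact (summable_mul_th (hs j)).hasSum
    · simp only [hi, if_false]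
      exact hasSum_th (hs i)
  refine (hasSum_pi_prod h).summable.congr fun k => ?_
  unfold thv
  rw [← Finset.mul_prod_erase Finset.univ _ (Finset.mem_univ j),
    ← Finset.mul_prod_erase Finset.univ (fun j => th (s j) (k j)) (Finset.mem_univ j)]
  simp only [if_true]
  rw [mul_assoc]
  congr 2
  apply Finset.prod_congr rfl
  intro i hi
  rw [if_neg (Finset.ne_of_mem_erase hi)]

theorem Tv_hasSum {η : ℝ} {s : Fin n → ℝ} (h0 : 0 ≤ η) (h1 : η ≤ 1) (hs : ∀ j, 0 ≤ s j)
    (m m' k k' : Conf n) :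
    HasSum (fun b : Conf n => thv s b * (P369.ampn (Real.sqrt η) (Real.sqrt (1 - η)) m (k + b - m) k b *
      P369.ampn (Real.sqrt η) (Real.sqrt (1 - η)) m' (k + b - m) k' b)) (Tv η s m m' k k') := by
  have h := hasSum_pi_prod (n := n)
    (fun j => T1_hasSum h0 h1 (hs j) (m j) (m' j) (k j) (k' j))
  refine h.congr_fun fun b => ?_
  unfold thv P369.ampn
  rw [← Finset.prod_mul_distrib, ← Finset.prod_mul_distrib]
  rfl

/-- the output as a sum over the elements of the first input (sequence model) -/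
theorem hasSum_Tv {η : ℝ} {s : Fin n → ℝ} (h0 : 0 ≤ η) (h1 : η ≤ 1) (hs : ∀ j, 0 ≤ s j)
    {ρA ρB ρC : P369.Fock n →L[ℂ] P369.Fock n} (hA : P369.IsState ρA)
    (hB : ∀ k, ρB (P369.ket k) = (thv s k : ℂ) • P369.ket k)
    (hO : P369.IsOutput η ρA ρB ρC) (m m' : Conf n) :
    HasSum (fun x : Conf n × Conf n => ((Tv η s m m' x.1 x.2 : ℝ) : ℂ) *
      ⟪P369.ket x.1, ρA (P369.ket x.2)⟫_ℂ) ⟪P369.ket m, ρC (P369.ket m')⟫_ℂ := by
  have h2 := hasSum_out h0 h1 hA (thv_isProb hs) hB hO m m'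
  have h4 : ∀ x : Conf n × Conf n, HasSum (fun b : Conf n =>
      ((thv s b * (P369.ampn (Real.sqrt η) (Real.sqrt (1 - η)) m (x.1 + b - m) x.1 b *
        P369.ampn (Real.sqrt η) (Real.sqrt (1 - η)) m' (x.1 + b - m) x.2 b) : ℝ) : ℂ) *
        ⟪P369.ket x.1, ρA (P369.ket x.2)⟫_ℂ)
      (((Tv η s m m' x.1 x.2 : ℝ) : ℂ) * ⟪P369.ket x.1, ρA (P369.ket x.2)⟫_ℂ) := by
    intro x
    have h5 : HasSum (fun b : Conf n =>
      ((thv s b * (P369.ampn (Real.sqrt η) (Real.sqrt (1 - η)) m (x.1 + b - m) x.1 b *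
        P369.ampn (Real.sqrt η) (Real.sqrt (1 - η)) m' (x.1 + b - m) x.2 b) : ℝ) : ℂ))
      ((Tv η s m m' x.1 x.2 : ℝ) : ℂ) :=
      Complex.hasSum_ofReal.mpr (Tv_hasSum h0 h1 hs m m' x.1 x.2)
    exact h5.mul_right _
  exact HasSum.prod_fiberwise h2 h4

variable {H K : Type} [NormedAddCommGroup H] [InnerProductSpace ℂ H] [CompleteSpace H]
  [NormedAddCommGroup K] [InnerProductSpace ℂ K] [CompleteSpace K]

/-- product of thermal states as the second input: existence, state, energy, matrix elements -/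
theorem phys_setup {η : ℝ} {s : Fin n → ℝ} (h0 : 0 ≤ η) (h1 : η ≤ 1) (hs : ∀ j, 0 ≤ s j)
    {e : Conf n → H} {f : Conf n → Conf n → K}
    (he : P369.Sys.IsNumberBasis e) (hf : P369.Sys.IsNumberBasis fun x : Conf n × Conf n => f x.1 x.2)
    {ρA ρB : H →L[ℂ] H} (hA : P369.Sys.IsState e ρA) (eA : P369.Sys.FiniteEnergy e ρA)
    (hB : ∀ k, ρB (e k) = (thv s k : ℂ) • e k) :
    (∃ ρC : H →L[ℂ] H, P369.Sys.IsOutput η e f ρA ρB ρC) ∧
    ∀ ρC : H →L[ℂ] H, P369.Sys.IsOutput η e f ρA ρB ρC → P369.Sys.IsState e ρC ∧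
      P369.Sys.FiniteEnergy e ρC ∧
      ∀ m m' : Conf n, HasSum (fun x : Conf n × Conf n => ((Tv η s m m' x.1 x.2 : ℝ) : ℂ) *
        ⟪e x.1, ρA (e x.2)⟫_ℂ) ⟪e m, ρC (e m')⟫_ℂ := by
  obtain ⟨T, hT0⟩ := P369.exists_repr he
  have hT : ∀ k, T (e k) = P369.ket k := hT0
  obtain ⟨T2, hT2⟩ := P369.exists_repr hf
  have hT2' : ∀ k l, T2 (f k l) = P369.ket2 k l := fun k l => hT2 (k, l)
  have sA := g5_state_to hT hA
  have eA' : P369.FiniteEnergy (P369.cj T ρA) := (t6_energy_to hT).mpr eA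
  have hB' := diag_to hT hB
  have hq := thv_isProb (n := n) hs
  refine ⟨?_, ?_⟩
  · obtain ⟨ρC', hO, -⟩ := t5_exists h0 h1 sA hq hB'
    exact ⟨_, P369.output_from T hT T2 hT2' hO⟩
  · intro ρC hO
    have hO' := P369.output_to T hT T2 hT2' hO
    have sC := t5_state h0 h1 sA hq hB' hO'
    have eC := t5_energy h0 h1 sA eA' hq (thv_energy hs) hB' hO'
    refine ⟨g5_state_from hT sC, (t6_energy_to hT).mp eC, fun m m' => ?_⟩
    have h := hasSum_Tv h0 h1 hs sA hB' hO' m m'
    simp only [← hT, P369.cj_inner] at h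
    exact h

end

end Vale.Agent.P369N
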