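import Vale.Agent.P369.H326.Phys1

/-!
The entropy of a product of thermal states.
-/

namespace Vale.Agent.P369N

open Vale.Agent.P369 (Conf)
open Vale.Agent.P369V
open Vale.Agent.P369T
open scoped InnerProductSpace

noncomputable section

variable {n : ℕ}

theorem Hs_thv {s : Fin n → ℝ} (hs : ∀ j, 0 ≤ s j) : P369.Hs (thv s) = ∑ j, P369.g (s j) := by
  unfold P369.Hs
  have h : ∀ j : Fin n, HasSum (fun k : Conf n =>
      ∏ i, if i = j then Real.negMulLog (th (s i) (k i)) else th (s i) (k i)) (P369.g (s j)) := by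
    intro j
    have h1 : ∀ i : Fin n, HasSum (fun k : ℕ => if i = j then Real.negMulLog (th (s i) k)
        else th (s i) k) (if i = j then P369.g (s j) else 1) := by
      intro i
      by_cases hi : i = j
      · simp only [hi, if_true]
        exact hasSum_negMulLog_th (hs j)
      · simp only [hi, if_false]
        exact hasSum_th (hs i)
    have h2 := hasSum_pi_prod h1
    rw [Finset.prod_ite_eq' Finset.univ j (fun _ => P369.g (s j)), if_pos (Finset.mem_univ j)] at h2
    exact h2
  have h3 := hasSum_sum (s := Finset.univ) fun j _ => h j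
  have h4 : (fun k : Conf n => Real.negMulLog (thv s k)) = fun k : Conf n => ∑ j,
      ∏ i, if i = j then Real.negMulLog (th (s i) (k i)) else th (s i) (k i) := by
    funext k
    exact negMulLog_prod fun j => th (s j) (k j)
  rw [h4, h3.tsum_eq]

variable {H : Type} [NormedAddCommGroup H] [InnerProductSpace ℂ H] [CompleteSpace H]

/-- the mean of `g` of the mean photon numbers -/
theorem photonNumber_thv (hn : 1 ≤ n) {s : Fin n → ℝ} (hs : ∀ j, 0 ≤ s j) {e : Conf n → H}
    (he : P369.Sys.IsNumberBasis e) {ρB : H →L[ℂ] H} (hS : P369.Sys.IsState e ρB)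
    (hB : ∀ k, ρB (e k) = (thv s k : ℂ) • e k) :
    0 ≤ P369.Sys.photonNumber e ρB ∧
      ∑ j, P369.g (s j) = n * P369.g (P369.Sys.photonNumber e ρB) := by
  obtain ⟨h1, h2⟩ := g8_photonNumber he hS
  have hn0 : (n : ℝ) ≠ 0 := by positivity
  refine ⟨h1, ?_⟩
  rw [h2, P369.entropy_sys e he.1 ρB hS _ hB, Hs_thv hs]
  field_simp

theorem isState_thv {s : Fin n → ℝ} (hs : ∀ j, 0 ≤ s j) {e : Conf n → H}
    (he : P369.Sys.IsNumberBasis e) {ρB : H →L[ℂ] H}
    (hB : ∀ k, ρB (e k) = (thv s k : ℂ) • e k) : P369.Sys.IsState e ρB := by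
  obtain ⟨T, hT0⟩ := P369.exists_repr he
  have hT : ∀ k, T (e k) = P369.ket k := hT0
  exact g5_state_from hT (P369.isState_of_diag (diag_to hT hB) (thv_isProb hs))

end

end Vale.Agent.P369N
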