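import Vale.Agent.P369.H326.Phys2

/-!
The attenuator with a product of thermal environments on finite matrices, and comparison of the
output of a truncated state with the full output.
-/

namespace Vale.Agent.P369N

open Matrix Set Filter Topology
open scoped InnerProductSpace ComplexOrder
open Vale.Agent.P369 (Conf box mem_box tendsto_box)
open Vale.Agent.P369.Sys
open Vale.Agent.P369V (ent cutm cv Cf sum_cv)
open Vale.Agent.P369T
open Vale.Agent.P369A (Ct cut)

noncomputable section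

variable {n : ℕ}

/-- the attenuator on a finite matrix, as an infinite matrix -/
def thE (η : ℝ) (s : Fin n → ℝ) {M : ℕ} (ρ : Matrix (Cf n M) (Cf n M) ℂ) :
    Conf n → Conf n → ℂ :=
  fun x y => ∑ k, ∑ k', ((Tv η s x y (cv k) (cv k') : ℝ) : ℂ) * ρ k k'

/-! ### coefficients -/

theorem T1_ne {η r : ℝ} {m m' k k' : ℕ} (h : m + k' ≠ m' + k) : T1 η r m m' k k' = 0 := by
  unfold T1
  have : ∀ b, th r b * (P369.amp (Real.sqrt η) (Real.sqrt (1 - η)) m (k + b - m) k b *
      P369.amp (Real.sqrt η) (Real.sqrt (1 - η)) m' (k + b - m) k' b) = 0 := by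
    intro b
    by_cases h1 : m + (k + b - m) = k + b
    · rw [P369.amp_hom _ _ m' (k + b - m) k' b (by omega)]
      ring
    · rw [P369.amp_hom _ _ m (k + b - m) k b h1]
      ring
  simp only [this, tsum_zero]

theorem Tv_ne {η : ℝ} {s : Fin n → ℝ} {m m' k k' : Conf n} (h : m + k' ≠ m' + k) :
    Tv η s m m' k k' = 0 := by
  obtain ⟨j, hj⟩ := Function.ne_iff.1 h
  exact Finset.prod_eq_zero (Finset.mem_univ j) (T1_ne hj)

theorem Tv_diag_ne {η : ℝ} {s : Fin n → ℝ} {m k k' : Conf n} (h : k ≠ k') :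
    Tv η s m m k k' = 0 :=
  Tv_ne fun h' => h (add_left_cancel h').symm

theorem Tv_off_ne {η : ℝ} {s : Fin n → ℝ} {m m' k : Conf n} (h : m ≠ m') :
    Tv η s m m' k k = 0 :=
  Tv_ne fun h' => h (add_right_cancel h')

section

variable {η : ℝ} {s : Fin n → ℝ} (h0 : 0 ≤ η) (h1 : η ≤ 1) (hs : ∀ j, 0 ≤ s j)
include h0 h1 hs

theorem Tv_diag_nonneg (m k : Conf n) : 0 ≤ Tv η s m m k k := by
  refine (Tv_hasSum h0 h1 hs m m k k).nonneg fun b => ?_
  exact mul_nonneg ((thv_isProb hs).1 b) (mul_self_nonneg _)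

theorem kern_hasSum (m k : Conf n) :
    HasSum (fun b => P369.kern η m k b * thv s b) (Tv η s m m k k) := by
  refine (Tv_hasSum h0 h1 hs m m k k).congr_fun fun b => ?_
  by_cases h : m + (k + b - m) = k + b
  · rw [P369.kern_eq_sq h]
    ring
  · have e1 : P369.ampn (Real.sqrt η) (Real.sqrt (1 - η)) m (k + b - m) k b = 0 :=
      P369.ampn_hom h
    have e2 : P369.kern η m k b = 0 := by
      have h' : ∃ j, k j + b j < m j := by
        by_contra hc
        push Not at hc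
        apply h
        funext j
        have := hc j
        simp only [Pi.add_apply, Pi.sub_apply]
        omega
      obtain ⟨j, hj⟩ := h'
      refine Finset.prod_eq_zero (Finset.mem_univ j) ?_
      exact P369.ker_zero_of_lt hj
    rw [e1, e2]
    ring

theorem Tv_diag_hasSum {p : Conf n → ℝ} (hp : P369.IsProb p) (m : Conf n) :
    HasSum (fun k => Tv η s m m k k * p k) (P369.outn η p (thv s) m) := by
  have hq := thv_isProb hs
  have hk := P369.kern_isKer (fun i j => (P369.hasSum_ker h0 h1 i j).tsum_eq) n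
  have h2 : HasSum (fun x : Conf n × Conf n => P369.kern η m x.1 x.2 * (p x.1 * thv s x.2))
      (P369.outn η p (thv s) m) :=
    (P369.summable_outG (K := P369.kern η) hk.nonneg
      (fun k l => by
        rw [← hk.one k l]
        exact (summable_of_hasFiniteSupport (hk.fin k l)).hasSum)
      hp.1 hq.1 hp.2.summable hq.2.summable m).hasSum
  refine HasSum.prod_fiberwise h2 fun k => ?_
  refine ((kern_hasSum h0 h1 hs m k).mul_right (p k)).congr_fun fun b => ?_
  ring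

end

/-! ### linearity -/

theorem thE_smul {η : ℝ} {s : Fin n → ℝ} {M : ℕ} (c : ℝ) (ρ : Matrix (Cf n M) (Cf n M) ℂ)
    (x y : Conf n) : thE η s (c • ρ) x y = (c : ℂ) * thE η s ρ x y := by
  unfold thE
  rw [Finset.mul_sum]
  refine Finset.sum_congr rfl fun k _ => ?_
  rw [Finset.mul_sum]
  refine Finset.sum_congr rfl fun k' _ => ?_
  rw [Matrix.smul_apply, Complex.real_smul]
  ring

theorem thE_add {η : ℝ} {s : Fin n → ℝ} {M : ℕ} (ρ τ : Matrix (Cf n M) (Cf n M) ℂ)
    (x y : Conf n) : thE η s (ρ + τ) x y = thE η s ρ x y + thE η s τ x y := by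
  unfold thE
  rw [← Finset.sum_add_distrib]
  refine Finset.sum_congr rfl fun k _ => ?_
  rw [← Finset.sum_add_distrib]
  refine Finset.sum_congr rfl fun k' _ => ?_
  rw [Matrix.add_apply]
  ring

theorem cut_thE_smul {η : ℝ} {s : Fin n → ℝ} {M : ℕ} (X : ℕ) (c : ℝ)
    (ρ : Matrix (Cf n M) (Cf n M) ℂ) : cut X (thE η s (c • ρ)) = c • cut X (thE η s ρ) := by
  ext x y
  rw [Matrix.smul_apply, Complex.real_smul]
  exact thE_smul c ρ _ _

theorem cut_thE_add {η : ℝ} {s : Fin n → ℝ} {M : ℕ} (X : ℕ) (ρ τ : Matrix (Cf n M) (Cf n M) ℂ) :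
    cut X (thE η s (ρ + τ)) = cut X (thE η s ρ) + cut X (thE η s τ) := by
  ext x y
  rw [Matrix.add_apply]
  exact thE_add ρ τ _ _

/-! ### the truncated thermal state -/

theorem thE_TM {η : ℝ} {s : Fin n → ℝ} (M : ℕ) (x y : Conf n) :
    thE η s (TM n M) x y = ((∑ k ∈ box n M, Tv η s x y k k * thn 1 k : ℝ) : ℂ) := by
  unfold thE
  rw [← sum_cv (M := M) (fun k => Tv η s x y k k * thn 1 k)]
  push_cast
  refine Finset.sum_congr rfl fun k _ => ?_
  rw [Finset.sum_eq_single k]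
  · unfold TM
    rw [Matrix.diagonal_apply_eq]
  · intro k' _ hk'
    unfold TM
    rw [Matrix.diagonal_apply_ne _ (Ne.symm hk'), mul_zero]
  · intro h
    exact absurd (Finset.mem_univ _) h

theorem thE_TM_off {η : ℝ} {s : Fin n → ℝ} (M : ℕ) {x y : Conf n} (h : x ≠ y) :
    thE η s (TM n M) x y = 0 := by
  rw [thE_TM, Finset.sum_eq_zero]
  · simp
  · intro k _
    rw [Tv_off_ne h, zero_mul]

section

variable {η : ℝ} {s : Fin n → ℝ} (h0 : 0 ≤ η) (h1 : η ≤ 1) (hs : ∀ j, 0 ≤ s j)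
include h0 h1 hs

theorem thE_TM_diag (M : ℕ) (x : Conf n) :
    0 ≤ (thE η s (TM n M) x x).re ∧ (thE η s (TM n M) x x).re ≤ P369.outn η (thn 1) (thv s) x := by
  rw [thE_TM, Complex.ofReal_re]
  have hT : ∀ k : Conf n, 0 ≤ Tv η s x x k k * thn 1 k := fun k =>
    mul_nonneg (Tv_diag_nonneg h0 h1 hs x k) (thn_one_pos k).le
  exact ⟨Finset.sum_nonneg fun k _ => hT k,
    sum_le_hasSum _ (fun k _ => hT k) (Tv_diag_hasSum h0 h1 hs (thn_isProb zero_le_one) x)⟩

theorem outn_le_one (x : Conf n) : P369.outn η (thn 1) (thv s) x ≤ 1 :=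
  (P369.outn_isProb h0 h1 (thn_isProb zero_le_one) (thv_isProb hs)).le_one x

theorem norm_thE_TM (M : ℕ) (x y : Conf n) : ‖thE η s (TM n M) x y‖ ≤ 1 := by
  by_cases hxy : x = y
  · subst hxy
    obtain ⟨h2, h3⟩ := thE_TM_diag h0 h1 hs M x
    have h4 : thE η s (TM n M) x x = (((thE η s (TM n M) x x).re : ℝ) : ℂ) := by
      rw [thE_TM, Complex.ofReal_re]
    rw [h4, Complex.norm_real, Real.norm_of_nonneg h2]
    exact h3.trans (outn_le_one h0 h1 hs x)
  · rw [thE_TM_off M hxy]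
    simp

end

/-! ### truncated states -/

variable {H : Type} [NormedAddCommGroup H] [InnerProductSpace ℂ H] [CompleteSpace H]

omit [CompleteSpace H] in
theorem thE_cutm {η : ℝ} {s : Fin n → ℝ} (e : Conf n → H) (M : ℕ) (σ : H →L[ℂ] H)
    (x y : Conf n) : thE η s (cutm e M σ) x y = ∑ z ∈ box n M ×ˢ box n M,
      ((Tv η s x y z.1 z.2 : ℝ) : ℂ) * ⟪e z.1, σ (e z.2)⟫_ℂ := by
  rw [Finset.sum_product, ← sum_cv (M := M) (fun a => ∑ b ∈ box n M,
    ((Tv η s x y a b : ℝ) : ℂ) * ⟪e a, σ (e b)⟫_ℂ)]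
  unfold thE
  refine Finset.sum_congr rfl fun k _ => ?_
  rw [← sum_cv (M := M) (fun b => ((Tv η s x y (cv k) b : ℝ) : ℂ) * ⟪e (cv k), σ (e b)⟫_ℂ)]
  rfl

omit [CompleteSpace H] in
theorem thE_cutm_tendsto {η : ℝ} {s : Fin n → ℝ} {e : Conf n → H} {σ ρC : H →L[ℂ] H}
    {x y : Conf n} (hout : HasSum (fun z : Conf n × Conf n => ((Tv η s x y z.1 z.2 : ℝ) : ℂ) *
      ⟪e z.1, σ (e z.2)⟫_ℂ) ⟪e x, ρC (e y)⟫_ℂ) :
    Tendsto (fun M => thE η s (cutm e M σ) x y) atTop (𝓝 ⟪e x, ρC (e y)⟫_ℂ) := by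
  have h1 : Tendsto (fun M => box n M ×ˢ box n M) atTop atTop := by
    apply tendsto_atTop_finset_of_monotone
    · intro N M hNM
      refine Finset.product_subset_product ?_ ?_ <;>
      · intro k hk
        rw [mem_box] at hk ⊢
        exact fun j => (hk j).trans hNM
    · rintro ⟨a, b⟩
      refine ⟨∑ j, a j + ∑ j, b j, ?_⟩
      rw [Finset.mem_product, mem_box, mem_box]
      constructor
      · intro j
        exact (Finset.single_le_sum (f := fun i => a i) (fun _ _ => Nat.zero_le _)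
          (Finset.mem_univ j)).trans (Nat.le_add_right _ _)
      · intro j
        exact (Finset.single_le_sum (f := fun i => b i) (fun _ _ => Nat.zero_le _)
          (Finset.mem_univ j)).trans (Nat.le_add_left _ _)
  have h2 := (show Tendsto _ atTop (𝓝 ⟪e x, ρC (e y)⟫_ℂ) from hout).comp h1
  refine h2.congr fun M => ?_
  rw [thE_cutm]
  rfl

omit [CompleteSpace H] in
theorem thE_cutm_diag {η : ℝ} {s : Fin n → ℝ} (h0 : 0 ≤ η) (h1 : η ≤ 1) (hs : ∀ j, 0 ≤ s j)
    {e : Conf n → H} (M : ℕ) {σ ρC : H →L[ℂ] H} (hσ : ∀ k, 0 ≤ (⟪e k, σ (e k)⟫_ℂ).re)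
    {x : Conf n} (hout : HasSum (fun z : Conf n × Conf n => ((Tv η s x x z.1 z.2 : ℝ) : ℂ) *
      ⟪e z.1, σ (e z.2)⟫_ℂ) ⟪e x, ρC (e x)⟫_ℂ) :
    (thE η s (cutm e M σ) x x).re ≤ (⟪e x, ρC (e x)⟫_ℂ).re := by
  rw [thE_cutm, Complex.re_sum]
  refine sum_le_hasSum _ (fun z _ => ?_) (Complex.hasSum_re hout)
  by_cases hz : z.1 = z.2
  · rw [← hz, Complex.re_ofReal_mul]
    exact mul_nonneg (Tv_diag_nonneg h0 h1 hs x z.1) (hσ z.1)
  · rw [Tv_diag_ne hz]
    simp

end

end Vale.Agent.P369N
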