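import Vale.Agent.P369.H326.Phys3

/-!
From finite matrices to all states: the attenuator with a product of thermal environments.
-/

namespace Vale.Agent.P369N

open Matrix Set Filter Topology
open scoped InnerProductSpace ComplexOrder
open Vale.Agent.P369 (Conf tot)
open Vale.Agent.P369.Sys
open Vale.Agent.P369V (ent cutm cv Cf)
open Vale.Agent.P369T
open Vale.Agent.P369A (Ct cut)

noncomputable section

variable {n : ℕ} {H : Type} [NormedAddCommGroup H] [InnerProductSpace ℂ H] [CompleteSpace H]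

/-- the finite-dimensional theorem -/
def ThFd (n : ℕ) (η : ℝ) (s : Fin n → ℝ) : Prop :=
  ∀ (M : ℕ) (ρ : Matrix (Cf n M) (Cf n M) ℂ), ρ.PosDef → ρ.trace = 1 → ∀ N : ℝ, 0 ≤ N →
    P369.g N ≤ ent ρ / n → ∀ NB : ℝ, 0 ≤ NB → ∑ j, P369.g (s j) = n * P369.g NB →
    ∀ ε > 0, ∀ᶠ X in atTop,
      n * P369.g (η * N + (1 - η) * NB) - ε ≤ ent (cut X (thE η s ρ))

/-- main step -/
theorem phys_main (hn : 1 ≤ n) {η : ℝ} {s : Fin n → ℝ} (hη0 : 0 ≤ η) (hη1 : η ≤ 1)
    (hs : ∀ j, 0 ≤ s j) (hfd : ThFd n η s)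
    (hpsd : ∀ (M : ℕ) (ρ : Matrix (Cf n M) (Cf n M) ℂ), ρ.PosDef → ∀ X,
      (cut X (thE η s ρ)).PosSemidef)
    {e : Conf n → H} (he : IsNumberBasis e) {σ ρC : H →L[ℂ] H} (hσ : IsState e σ)
    (eσ : FiniteEnergy e σ) (hC : IsState e ρC) (eC : FiniteEnergy e ρC)
    (hout : ∀ m m' : Conf n, HasSum (fun x : Conf n × Conf n => ((Tv η s m m' x.1 x.2 : ℝ) : ℂ) *
        ⟪e x.1, σ (e x.2)⟫_ℂ) ⟪e m, ρC (e m')⟫_ℂ)
    {N : ℝ} (hN : 0 ≤ N) (hlt : N = 0 ∨ P369.g N < entropy e σ / n)
    {NB : ℝ} (hNB : 0 ≤ NB) (hsNB : ∑ j, P369.g (s j) = n * P369.g NB) :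
    n * P369.g (η * N + (1 - η) * NB) ≤ entropy e ρC := by
  have hn' : (0 : ℝ) < n := by exact_mod_cast hn
  choose δ hδ0 hδ1 hδ2 using fun M : ℕ => t7_delta e hσ M
  set A : (M : ℕ) → Matrix (Cf n M) (Cf n M) ℂ := fun M => cutm e M σ with hA
  set B : (M : ℕ) → Matrix (Cf n M) (Cf n M) ℂ := fun M => cutm e M σ + δ M • TM n M with hB
  have hAps : ∀ M, (A M).PosSemidef := fun M => P369V.g8_cutm_posSemidef e M hσ.1
  have hBpd : ∀ M, (B M).PosDef := fun M =>
    ((TM_posDef n M).smul (hδ0 M)).posSemidef_add (hAps M)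
  -- traces
  set t : ℕ → ℝ := fun M => (TM n M).trace.re with ht
  have htTM : ∀ M, (TM n M).trace = ((t M : ℝ) : ℂ) := by
    intro M
    apply Complex.ext
    · simp only [ht, Complex.ofReal_re]
    · rw [Complex.ofReal_im]
      unfold TM
      rw [Matrix.trace_diagonal, Complex.im_sum]
      exact Finset.sum_eq_zero fun i _ => Complex.ofReal_im _
  have ht0 : ∀ M, 0 ≤ t M := by
    intro M
    simp only [ht]
    unfold TM
    rw [Matrix.trace_diagonal, Complex.re_sum]
    exact Finset.sum_nonneg fun i _ => by rw [Complex.ofReal_re]; exact (thn_one_pos _).le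
  have ht1 : ∀ M, t M ≤ 1 := by
    intro M
    simp only [ht]
    unfold TM
    rw [Matrix.trace_diagonal, Complex.re_sum]
    have h1 : ∑ i : Cf n M, (((thn 1 (cv i) : ℝ) : ℂ)).re = ∑ k ∈ P369.box n M, thn 1 k := by
      rw [← P369V.sum_cv (M := M) (fun k => thn 1 k)]
      exact Finset.sum_congr rfl fun i _ => Complex.ofReal_re _
    rw [h1]
    exact sum_le_hasSum _ (fun k _ => (thn_one_pos k).le) (thn_isProb (by norm_num)).2
  set τ : ℕ → ℝ := fun M => (A M).trace.re + δ M * t M with hτ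
  have hBtr : ∀ M, (B M).trace = ((τ M : ℝ) : ℂ) := by
    intro M
    simp only [hB, hτ]
    rw [Matrix.trace_add, Matrix.trace_smul, htTM, P369V.g8_trace_im hσ M, Complex.real_smul]
    push_cast
    rfl
  have hτlim : Tendsto τ atTop (𝓝 1) := by
    have h1 : Tendsto (fun M => δ M * t M) atTop (𝓝 0) := by
      refine squeeze_zero (fun M => mul_nonneg (hδ0 M).le (ht0 M)) (fun M => ?_)
        tendsto_one_div_add_atTop_nhds_zero_nat
      calc δ M * t M ≤ δ M * 1 := mul_le_mul_of_nonneg_left (ht1 M) (hδ0 M).le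
        _ ≤ _ := by rw [mul_one]; exact hδ1 M
    have h2 := (P369V.g8_trace_tendsto hσ).add h1
    rw [add_zero] at h2
    exact h2
  have hτpos : ∀ᶠ M in atTop, 0 < τ M := hτlim.eventually (lt_mem_nhds zero_lt_one)
  -- the entropies of the normalized matrices
  have hentB : ∀ᶠ M in atTop, P369.g N ≤ ent (((τ M)⁻¹ : ℝ) • B M) / n := by
    rcases hlt with hz | hlt
    · filter_upwards [hτpos] with M hM
      rw [hz, P369.g_zero]
      refine div_nonneg (P369V.ent_nonneg ((hBpd M).posSemidef.smul (inv_nonneg.mpr hM.le)) ?_)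
        hn'.le
      rw [Matrix.trace_smul, hBtr, Complex.real_smul, ← Complex.ofReal_mul,
        inv_mul_cancel₀ hM.ne', Complex.ofReal_one]
    · have hsm := P369V.g3_summable he hσ eσ
      have t1 : Tendsto (fun M => ∑ k ∈ P369.box n M, (⟪e k, P369.negMulLogOp σ (e k)⟫_ℂ).re) atTop
          (𝓝 (entropy e σ)) := (show Tendsto (fun s : Finset (Conf n) =>
            ∑ k ∈ s, (⟪e k, P369.negMulLogOp σ (e k)⟫_ℂ).re) atTop (𝓝 (entropy e σ))
            from hsm.hasSum).comp (P369.tendsto_box n)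
      have t2 : Tendsto (fun M : ℕ => (1 : ℝ) / ((M : ℝ) + 1)) atTop (𝓝 0) :=
        tendsto_one_div_add_atTop_nhds_zero_nat
      have t3 : Tendsto (fun M => (τ M)⁻¹ *
          (∑ k ∈ P369.box n M, (⟪e k, P369.negMulLogOp σ (e k)⟫_ℂ).re - 1 / ((M : ℝ) + 1)) +
          Real.log (τ M)) atTop (𝓝 (1⁻¹ * (entropy e σ - 0) + Real.log 1)) :=
        ((hτlim.inv₀ one_ne_zero).mul (t1.sub t2)).add (hτlim.log one_ne_zero)
      rw [inv_one, one_mul, Real.log_one, add_zero, sub_zero] at t3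
      have hlt' : n * P369.g N < entropy e σ := by
        rw [lt_div_iff₀ hn'] at hlt
        linarith
      filter_upwards [t3.eventually (lt_mem_nhds hlt'), hτpos] with M h3 hpos
      have h4 : ∑ k ∈ P369.box n M, (⟪e k, P369.negMulLogOp σ (e k)⟫_ℂ).re ≤ ent (A M) := by
        rw [← P369V.sum_cv (M := M) (fun k => (⟪e k, P369.negMulLogOp σ (e k)⟫_ℂ).re)]
        exact P369V.g1_ent_cutm_ge he.1 hσ.1 M
      have h5 : ent (((τ M)⁻¹ : ℝ) • B M) = (τ M)⁻¹ * ent (B M) + Real.log (τ M) := by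
        rw [P369V.g4_ent_smul (hBpd M).posSemidef hpos, hBtr, Complex.ofReal_re]
        (clear * - hpos; field_simp)
      have h6 : ent (A M) - 1 / ((M : ℝ) + 1) ≤ ent (B M) := by
        have := abs_le.mp (hδ2 M)
        simp only [hA, hB]
        linarith only [this]
      rw [le_div_iff₀ hn', h5]
      have h7 := mul_le_mul_of_nonneg_left ((sub_le_sub_right h4 (1 / ((M : ℝ) + 1))).trans h6)
        (inv_nonneg.mpr hpos.le)
      linarith
  -- the output
  set SC : Conf n → Conf n → ℂ := fun a b => ⟪e a, ρC (e b)⟫_ℂ with hSC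
  have hO : P369.IsProb (P369.outn η (thn 1) (thv s)) :=
    P369.outn_isProb hη0 hη1 (thn_isProb zero_le_one) (thv_isProb hs)
  set D : Conf n → ℝ := fun x => (SC x x).re + P369.outn η (thn 1) (thv s) x with hD
  have hthn0 : ∀ x : Conf n, 0 ≤ P369.outn η (thn 1) (thv s) x := hO.1
  have hD0 : ∀ x, 0 ≤ D x := fun x => add_nonneg (P369V.g3_nonneg hC x) (hthn0 x)
  set W : Conf n → ℝ := fun k => tot k * D k + Real.exp (-tot k) with hW
  have hWs : Summable W := by
    have h1 : Summable fun k : Conf n => tot k * (SC k k).re := eC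
    have h2 : Summable fun k : Conf n => tot k * P369.outn η (thn 1) (thv s) k :=
      P369.outn_energy hη0 hη1 (thn_isProb zero_le_one) (thv_isProb hs) (thn_energy zero_le_one)
        (thv_energy hs)
    have h3 := (h1.add h2).add (P369.summable_exp_tot n)
    refine h3.congr fun k => ?_
    simp only [hW, hD]
    ring
  have hcutB : ∀ M X, cut X (thE η s (B M)) =
      cut X (thE η s (A M)) + δ M • cut X (thE η s (TM n M)) := by
    intro M X
    simp only [hB]
    rw [cut_thE_add, cut_thE_smul]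
  have hBdiag : ∀ M x, (thE η s (B M) x x).re ≤ D x := by
    intro M x
    have h1 : thE η s (B M) x x = thE η s (A M) x x +
        ((δ M : ℝ) : ℂ) * thE η s (TM n M) x x := by
      simp only [hB]
      rw [thE_add, thE_smul]
    rw [h1, Complex.add_re, Complex.re_ofReal_mul]
    have h2 : (thE η s (A M) x x).re ≤ (SC x x).re :=
      thE_cutm_diag hη0 hη1 hs M (fun k => P369V.g3_nonneg hσ k) (hout x x)
    obtain ⟨h3, h4⟩ := thE_TM_diag hη0 hη1 hs M x
    have h5 : δ M ≤ 1 := (hδ1 M).trans (by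
      rw [div_le_one (by (clear * -; positivity))]
      have : (0 : ℝ) ≤ M := Nat.cast_nonneg M
      linarith only [])
    have h6 : δ M * (thE η s (TM n M) x x).re ≤ P369.outn η (thn 1) (thv s) x :=
      calc _ ≤ 1 * (thE η s (TM n M) x x).re := mul_le_mul_of_nonneg_right h5 h3
        _ ≤ _ := by rw [one_mul]; exact h4
    simp only [hD]
    exact add_le_add h2 h6
  have hBps : ∀ M X, (cut X (thE η s (B M))).PosSemidef := fun M X =>
    hpsd M _ (hBpd M) X
  have hDsum : ∀ X, ∑ x ∈ tb n X, D x ≤ 2 := by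
    intro X
    simp only [hD]
    rw [Finset.sum_add_distrib]
    have h1 := sum_le_hasSum (tb n X) (fun k _ => P369V.g3_nonneg hC k) (P369V.g3_hasSum hC)
    have h2 := sum_le_hasSum (tb n X) (fun k _ => hthn0 k) hO.2
    linarith only [h1, h2]
  have hBtr2 : ∀ M X, 0 ≤ (cut X (thE η s (B M))).trace.re ∧
      (cut X (thE η s (B M))).trace.re ≤ 2 := by
    intro M X
    constructor
    · have := (hBps M X).trace_nonneg
      rw [Complex.nonneg_iff] at this
      exact this.1
    · refine le_trans ?_ (hDsum X)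
      rw [← sum_tb X (fun k => D k), Matrix.trace, Complex.re_sum]
      exact Finset.sum_le_sum fun x _ => hBdiag M x.1
  -- for each `Y` and `ε`
  have key : ∀ ε > 0, ∀ Y, n * P369.g (η * N + (1 - η) * NB) - ε ≤ ent (cut Y SC) +
      (∑' k, W k - ∑ k ∈ tb n Y, W k) := by
    intro ε hε Y
    set G := n * P369.g (η * N + (1 - η) * NB) with hG
    set tail := ∑' k, W k - ∑ k ∈ tb n Y, W k with htail
    have h1 : ∀ᶠ M in atTop, G - ε ≤ (τ M)⁻¹ * (ent (cut Y (thE η s (B M))) + tail) +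
        2 * (|Real.log (τ M)| * |(τ M)⁻¹|) := by
      filter_upwards [hentB, hτpos] with M hM hpos
      have hpd : (((τ M)⁻¹ : ℝ) • B M).PosDef := (hBpd M).smul (inv_pos.mpr hpos)
      have htr : (((τ M)⁻¹ : ℝ) • B M).trace = 1 := by
        rw [Matrix.trace_smul, hBtr, Complex.real_smul, ← Complex.ofReal_mul,
          inv_mul_cancel₀ hpos.ne', Complex.ofReal_one]
      obtain ⟨X, hX, hYX⟩ := ((hfd M _ hpd htr N hN hM NB hNB hsNB ε hε).and (eventually_ge_atTop Y)).exists
      rw [cut_thE_smul, P369V.g4_ent_smul (hBps M X) hpos] at hX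
      have h2 := tb_tail hD0 hW hWs hYX (hBps M X) (hBdiag M)
      have h3 : Real.log (τ M) / τ M * (cut X (thE η s (B M))).trace.re ≤
          2 * (|Real.log (τ M)| * |(τ M)⁻¹|) := by
        have h4 := hBtr2 M X
        calc _ ≤ |Real.log (τ M) / τ M * (cut X (thE η s (B M))).trace.re| :=
              le_abs_self _
          _ = (|Real.log (τ M)| * |(τ M)⁻¹|) * (cut X (thE η s (B M))).trace.re := by
              rw [abs_mul, div_eq_mul_inv, abs_mul, abs_of_nonneg h4.1]
          _ ≤ (|Real.log (τ M)| * |(τ M)⁻¹|) * 2 :=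
              mul_le_mul_of_nonneg_left h4.2 (by (clear * - hpos; positivity))
          _ = _ := by ring
      have h5 := mul_le_mul_of_nonneg_left h2 (inv_nonneg.mpr hpos.le)
      linarith only [hX, h3, h5]
    have hlimA : Tendsto (fun M => cut Y (thE η s (B M))) atTop (𝓝 (cut Y SC)) := by
      refine tendsto_pi_nhds.mpr fun x => tendsto_pi_nhds.mpr fun y => ?_
      have h2 : Tendsto (fun M => thE η s (A M) x.1 y.1 + ((δ M : ℝ) : ℂ) *
          thE η s (TM n M) x.1 y.1) atTop (𝓝 (SC x.1 y.1 + 0)) := by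
        refine (thE_cutm_tendsto (hout x.1 y.1)).add ?_
        rw [tendsto_zero_iff_norm_tendsto_zero]
        refine squeeze_zero (fun M => norm_nonneg _) (fun M => ?_)
          tendsto_one_div_add_atTop_nhds_zero_nat
        rw [norm_mul, Complex.norm_real, Real.norm_of_nonneg (hδ0 M).le]
        calc _ ≤ δ M * 1 := mul_le_mul_of_nonneg_left (norm_thE_TM hη0 hη1 hs M _ _) (hδ0 M).le
          _ ≤ _ := by rw [mul_one]; exact hδ1 M
      rw [add_zero] at h2
      refine h2.congr fun M => ?_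
      rw [hcutB, Matrix.add_apply, Matrix.smul_apply, Complex.real_smul]
      rfl
    have hSCps : (cut Y SC).PosSemidef := by
      have hxY : ∀ (z : Ct n Y) (j : Fin n), z.1 j ≤ Y := fun z j =>
        (Finset.single_le_sum (f := fun i => z.1 i) (fun _ _ => Nat.zero_le _)
          (Finset.mem_univ j)).trans z.2
      have h3 : cut Y SC = (cutm e Y ρC).submatrix (fun z : Ct n Y => P369V.g8_tr z.1 (hxY z))
          (fun z : Ct n Y => P369V.g8_tr z.1 (hxY z)) := rfl
      rw [h3]
      exact (P369V.g8_cutm_posSemidef e Y hC.1).submatrix _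
    have h4 := P369V.g4_tendsto_ent (fun M => hBps M Y) hSCps hlimA
    have h5 : Tendsto (fun M => (τ M)⁻¹ * (ent (cut Y (thE η s (B M))) + tail) +
        2 * (|Real.log (τ M)| * |(τ M)⁻¹|)) atTop
        (𝓝 ((1 : ℝ)⁻¹ * (ent (cut Y SC) + tail) + 2 * (|Real.log 1| * |(1 : ℝ)⁻¹|))) :=
      ((hτlim.inv₀ one_ne_zero).mul (h4.add_const _)).add
        (((hτlim.log one_ne_zero).abs.mul (hτlim.inv₀ one_ne_zero).abs).const_mul 2)
    rw [inv_one, one_mul, Real.log_one, abs_zero, zero_mul, mul_zero, add_zero] at h5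
    exact ge_of_tendsto h5 h1
  -- `Y → ∞`
  refine le_of_forall_pos_le_add fun ε hε => ?_
  have hlim : Tendsto (fun Y => entropy e ρC + (1 - ∑ k ∈ tb n Y, (⟪e k, ρC (e k)⟫_ℂ).re) +
      (∑' k, W k - ∑ k ∈ tb n Y, W k)) atTop
      (𝓝 (entropy e ρC + (1 - 1) + (∑' k, W k - ∑' k, W k))) := by
    refine ((tendsto_const_nhds.sub ?_).const_add _).add (tendsto_const_nhds.sub ?_)
    · exact (show Tendsto (fun s : Finset (Conf n) => ∑ k ∈ s, (⟪e k, ρC (e k)⟫_ℂ).re) atTop
        (𝓝 1) from P369V.g3_hasSum hC).comp (tendsto_tb n)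
    · exact (show Tendsto (fun s : Finset (Conf n) => ∑ k ∈ s, W k) atTop
        (𝓝 (∑' k, W k)) from hWs.hasSum).comp (tendsto_tb n)
  rw [sub_self, add_zero, sub_self, add_zero] at hlim
  have h6 : n * P369.g (η * N + (1 - η) * NB) - ε ≤ entropy e ρC := by
    refine ge_of_tendsto' hlim fun Y => (key ε hε Y).trans ?_
    have := t7_ent_cut_le he hC eC Y
    exact add_le_add this le_rfl
  linarith

end

end Vale.Agent.P369N
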