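import Vale.Agent.P369.H326.Phys4

/-!
Positivity of the attenuator with a product of thermal environments on finite matrices.
-/

namespace Vale.Agent.P369N

open Matrix Set Filter Topology
open scoped InnerProductSpace ComplexOrder
open Vale.Agent.P369 (Conf tot ampn ampn_hom)
open Vale.Agent.P369V (ent cutm cv Cf)
open Vale.Agent.P369T
open Vale.Agent.P369A (Ct cut)

noncomputable section

variable {n : ℕ}

/-- a sum of positive semidefinite matrices is positive semidefinite -/
theorem psd_of_hasSum {ι β : Type} [Fintype ι] {G : β → Matrix ι ι ℂ} {S : Matrix ι ι ℂ}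
    (hG : ∀ b, (G b).PosSemidef) (hS : ∀ x y, HasSum (fun b => G b x y) (S x y)) :
    S.PosSemidef := by
  refine Matrix.PosSemidef.of_dotProduct_mulVec_nonneg ?_ fun z => ?_
  · ext x y
    rw [Matrix.conjTranspose_apply]
    have h1 : HasSum (fun b => star (G b y x)) (star (S y x)) :=
      Complex.hasSum_conj'.mpr (hS y x)
    refine h1.unique ((hS x y).congr_fun fun b => ?_)
    exact congrFun (congrFun (hG b).1 x) y
  · have h1 : HasSum (fun b => star z ⬝ᵥ (G b *ᵥ z)) (star z ⬝ᵥ (S *ᵥ z)) := by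
      simp only [dotProduct, Matrix.mulVec]
      exact hasSum_sum fun x _ => (hasSum_sum fun y _ => (hS x y).mul_right (z y)).mul_left _
    exact h1.nonneg fun b => (hG b).dotProduct_mulVec_nonneg z

/-- the Kraus operators -/
def krv (η : ℝ) (M X : ℕ) (b l : Conf n) : Matrix (Ct n X) (Cf n M) ℂ := fun x k =>
  ((ampn (Real.sqrt η) (Real.sqrt (1 - η)) x.1 l (cv k) b : ℝ) : ℂ)

theorem thE_posSemidef {η : ℝ} {s : Fin n → ℝ} (h0 : 0 ≤ η) (h1 : η ≤ 1) (hs : ∀ j, 0 ≤ s j)
    {M : ℕ} {ρ : Matrix (Cf n M) (Cf n M) ℂ} (hρ : ρ.PosSemidef) (X : ℕ) :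
    (cut X (thE η s ρ)).PosSemidef := by
  classical
  set L : Conf n → Finset (Conf n) := fun b => P369.below (fun j => M + b j) with hL
  refine psd_of_hasSum (β := Conf n) (G := fun b => ∑ l ∈ L b,
    (((thv s b : ℝ) : ℂ)) • (krv η M X b l * ρ * (krv η M X b l)ᴴ)) (fun b => ?_) fun x y => ?_
  · refine Matrix.posSemidef_sum _ fun l _ => ?_
    refine (hρ.mul_mul_conjTranspose_same _).smul ?_
    have := (thv_isProb hs).1 b
    exact_mod_cast this
  · have e1 : ∀ b, (∑ l ∈ L b, (((thv s b : ℝ) : ℂ)) • (krv η M X b l * ρ * (krv η M X b l)ᴴ)) x y =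
        ∑ k, ∑ k', ((thv s b * (ampn (Real.sqrt η) (Real.sqrt (1 - η)) x.1 (cv k + b - x.1) (cv k) b *
          ampn (Real.sqrt η) (Real.sqrt (1 - η)) y.1 (cv k + b - x.1) (cv k') b) : ℝ) : ℂ) *
          ρ k k' := by
      intro b
      rw [Matrix.sum_apply]
      have e2 : ∀ l ∈ L b, ((((thv s b : ℝ) : ℂ)) • (krv η M X b l * ρ * (krv η M X b l)ᴴ)) x y =
          ∑ k, ∑ k', ((thv s b * (ampn (Real.sqrt η) (Real.sqrt (1 - η)) x.1 l (cv k) b *
          ampn (Real.sqrt η) (Real.sqrt (1 - η)) y.1 l (cv k') b) : ℝ) : ℂ) * ρ k k' := by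
        intro l _
        rw [Matrix.smul_apply, Matrix.mul_apply, smul_eq_mul, Finset.mul_sum, Finset.sum_comm]
        refine Finset.sum_congr rfl fun k' _ => ?_
        rw [Matrix.mul_apply, Matrix.conjTranspose_apply, Finset.sum_mul, Finset.mul_sum]
        refine Finset.sum_congr rfl fun k _ => ?_
        unfold krv
        rw [Complex.star_def, Complex.conj_ofReal]
        push_cast
        ring
      rw [Finset.sum_congr rfl e2, Finset.sum_comm]
      refine Finset.sum_congr rfl fun k _ => ?_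
      rw [Finset.sum_comm]
      refine Finset.sum_congr rfl fun k' _ => ?_
      rw [Finset.sum_eq_single (cv k + b - x.1)]
      · intro l _ hl
        rw [ampn_hom (m := x.1)]
        · simp
        · intro h
          apply hl
          rw [← h, add_tsub_cancel_left]
      · intro h
        exfalso
        apply h
        rw [hL, P369.mem_below]
        intro j
        have := Nat.lt_succ_iff.1 (k j).2
        have h3 : (cv k + b - x.1) j = (k j : ℕ) + b j - x.1 j := rfl
        rw [h3]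
        omega
    refine HasSum.congr_fun ?_ fun b => e1 b
    exact hasSum_sum fun k _ => hasSum_sum fun k' _ =>
      (Complex.hasSum_ofReal.mpr (Tv_hasSum h0 h1 hs x.1 y.1 (cv k) (cv k'))).mul_right _

/-- The entropy photon-number inequality for a product of thermal environments and all states of
finite energy, from the finite-dimensional theorem. -/
theorem phys_state {H : Type} [NormedAddCommGroup H] [InnerProductSpace ℂ H] [CompleteSpace H]
    (hn : 1 ≤ n) {η : ℝ} {s : Fin n → ℝ} (hη0 : 0 ≤ η) (hη1 : η ≤ 1)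
    (hs : ∀ j, 0 ≤ s j) (hfd : ThFd n η s)
    {e : Conf n → H} (he : P369.Sys.IsNumberBasis e) {σ ρC : H →L[ℂ] H}
    (hσ : P369.Sys.IsState e σ)
    (eσ : P369.Sys.FiniteEnergy e σ) (hC : P369.Sys.IsState e ρC)
    (eC : P369.Sys.FiniteEnergy e ρC)
    (hout : ∀ m m' : Conf n, HasSum (fun x : Conf n × Conf n => ((Tv η s m m' x.1 x.2 : ℝ) : ℂ) *
        ⟪e x.1, σ (e x.2)⟫_ℂ) ⟪e m, ρC (e m')⟫_ℂ)
    {NB : ℝ} (hNB : 0 ≤ NB) (hsNB : ∑ j, P369.g (s j) = n * P369.g NB) :
    η * P369.Sys.photonNumber e σ + (1 - η) * NB ≤ P369.Sys.photonNumber e ρC := by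
  have hn' : (0 : ℝ) < n := by exact_mod_cast hn
  obtain ⟨hNs, hgs⟩ := P369V.g8_photonNumber he hσ
  obtain ⟨hNC, hgC⟩ := P369V.g8_photonNumber he hC
  have hη1' : 0 ≤ 1 - η := by linarith
  have hpos : ∀ N : ℝ, 0 ≤ N → 0 ≤ η * N + (1 - η) * NB := fun N hN => by positivity
  rw [← P369.g_le_iff (hpos _ hNs) hNC, hgC, le_div_iff₀ hn', mul_comm]
  have hmain : ∀ N, 0 ≤ N → (N = 0 ∨ N < P369.Sys.photonNumber e σ) →
      n * P369.g (η * N + (1 - η) * NB) ≤ P369.Sys.entropy e ρC := by
    intro N hN hlt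
    refine phys_main hn hη0 hη1 hs hfd (fun M ρ hρ X => thE_posSemidef hη0 hη1 hs hρ.posSemidef X)
      he hσ eσ hC eC hout hN ?_ hNB hsNB
    rcases hlt with h | h
    · exact Or.inl h
    · right
      rw [← hgs]
      exact P369.g_strictMono hN hNs h
  rcases hNs.eq_or_lt with h | h
  · rw [← h]
    exact hmain 0 le_rfl (Or.inl rfl)
  · have hc : Tendsto (fun N => n * P369.g (η * N + (1 - η) * NB))
        (𝓝[<] P369.Sys.photonNumber e σ)
        (𝓝 (n * P369.g (η * P369.Sys.photonNumber e σ + (1 - η) * NB))) :=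
      (((P369.continuous_g.comp
        (by fun_prop : Continuous fun N : ℝ => η * N + (1 - η) * NB)).const_mul
        (n : ℝ)).tendsto _).mono_left nhdsWithin_le_nhds
    refine le_of_tendsto hc ?_
    filter_upwards [Ioo_mem_nhdsLT h] with N hN
    exact hmain N hN.1.le (Or.inr hN.2)

end

end Vale.Agent.P369N
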