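import Vale.Agent.P369.H326.Phys5

/-!
Boundary cases of the finite-dimensional theorem: `η = 0`, `η = 1`, and `s_j = 0` by a limit.
-/

namespace Vale.Agent.P369N

open Matrix Set Filter Topology
open scoped InnerProductSpace ComplexOrder
open Vale.Agent.P369 (Conf tot ampn ampn_hom)
open Vale.Agent.P369V (ent cutm cv Cf)
open Vale.Agent.P369T
open Vale.Agent.P369A (Ct cut)

noncomputable section

variable {n : ℕ}

/-! ### `η = 1` -/

theorem T1_one {r : ℝ} (hr : 0 ≤ r) (m m' k k' : ℕ) :
    T1 1 r m m' k k' = if m = k ∧ m' = k' then 1 else 0 := by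
  have hκ : kap 1 r = 1 := by unfold kap; ring
  induction m generalizing m' k k' with
  | zero =>
    induction m' generalizing k k' with
    | zero =>
      rw [T1_zero zero_le_one le_rfl hr, hκ]
      by_cases h : k = k'
      · subst h
        rw [if_pos rfl]
        rcases Nat.eq_zero_or_pos k with hk | hk
        · subst hk; simp
        · rw [if_neg (by omega)]
          simp [hk.ne']
      · rw [if_neg h, if_neg (by omega)]
    | succ m' ih =>
      have hp : (0 : ℝ) < Real.sqrt ((m' : ℝ) + 1) := Real.sqrt_pos.mpr (by positivity)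
      apply mul_left_cancel₀ hp.ne'
      rw [T1_rec' zero_le_one le_rfl hr, hκ, ih]
      rcases k' with _ | j
      · simp
      · have e : j + 1 - 1 = j := rfl
        rw [e]
        by_cases h : 0 = k ∧ m' = j
        · obtain ⟨h1, h2⟩ := h
          subst h1; subst h2
          simp
        · rw [if_neg h, if_neg (by omega)]
          simp
  | succ m ih =>
    have hp : (0 : ℝ) < Real.sqrt ((m : ℝ) + 1) := Real.sqrt_pos.mpr (by positivity)
    apply mul_left_cancel₀ hp.ne'
    rw [T1_rec zero_le_one le_rfl hr, hκ, ih]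
    rcases k with _ | j
    · simp
    · have e : j + 1 - 1 = j := rfl
      rw [e]
      by_cases h : m = j ∧ m' = k'
      · obtain ⟨h1, h2⟩ := h
        subst h1; subst h2
        simp
      · rw [if_neg h, if_neg (by omega)]
        simp

theorem Tv_one {s : Fin n → ℝ} (hs : ∀ j, 0 ≤ s j) (m m' k k' : Conf n) :
    Tv 1 s m m' k k' = if m = k ∧ m' = k' then 1 else 0 := by
  unfold Tv
  rw [Finset.prod_congr rfl fun j _ => T1_one (hs j) (m j) (m' j) (k j) (k' j)]
  rw [Finset.prod_ite_zero]
  by_cases h : m = k ∧ m' = k'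
  · obtain ⟨h1, h2⟩ := h
    subst h1; subst h2
    simp
  · rw [if_neg h, if_neg]
    intro h'
    exact h ⟨funext fun j => (h' j (Finset.mem_univ j)).1,
      funext fun j => (h' j (Finset.mem_univ j)).2⟩

theorem thE_one {s : Fin n → ℝ} (hs : ∀ j, 0 ≤ s j) {M : ℕ} (ρ : Matrix (Cf n M) (Cf n M) ℂ) :
    thE 1 s ρ = P369A.ext ρ := by
  funext x y
  unfold thE
  simp only [Tv_one hs]
  by_cases h : (∀ j, x j < M + 1) ∧ (∀ j, y j < M + 1)
  · set a : Cf n M := fun j => ⟨x j, h.1 j⟩ with ha
    set b : Cf n M := fun j => ⟨y j, h.2 j⟩ with hb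
    have hca : cv a = x := rfl
    have hcb : cv b = y := rfl
    rw [Finset.sum_eq_single a, Finset.sum_eq_single b]
    · rw [if_pos ⟨hca.symm, hcb.symm⟩, ← hca, ← hcb, ext_cv]
      simp
    · intro c _ hc
      rw [if_neg]
      · simp
      · rintro ⟨-, h2⟩
        exact hc (Vale.Agent.P369V.cv_injective (hcb.trans h2).symm)
    · intro h; exact absurd (Finset.mem_univ _) h
    · intro c _ hc
      refine Finset.sum_eq_zero fun d _ => ?_
      rw [if_neg]
      · simp
      · rintro ⟨h2, -⟩
        exact hc (Vale.Agent.P369V.cv_injective (hca.trans h2).symm)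
    · intro h; exact absurd (Finset.mem_univ _) h
  · rw [ext_zero_left ρ h]
    refine Finset.sum_eq_zero fun c _ => Finset.sum_eq_zero fun d _ => ?_
    rw [if_neg]
    · simp
    · rintro ⟨h1, h2⟩
      exact h ⟨fun j => by rw [h1]; exact (c j).2, fun j => by rw [h2]; exact (d j).2⟩

theorem ThFd_one (hn : 1 ≤ n) {s : Fin n → ℝ} (hs : ∀ j, 0 ≤ s j) : ThFd n 1 s := by
  intro M ρ hρ _ N _ hg NB _ _ ε hε
  have hn' : (0 : ℝ) < n := by exact_mod_cast hn
  filter_upwards [eventually_ge_atTop (n * M)] with X hX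
  rw [thE_one hs, P369A.ent_cut_ext hX hρ.posSemidef]
  rw [le_div_iff₀ hn'] at hg
  have e : (1 : ℝ) * N + (1 - 1) * NB = N := by ring
  rw [e]
  linarith

/-! ### `η = 0` -/

theorem T1_zero_eta {r : ℝ} (hr : 0 ≤ r) (m m' k k' : ℕ) :
    T1 0 r m m' k k' = if m = m' ∧ k = k' then th r m else 0 := by
  have hκ : kap 0 r = r + 1 := by unfold kap; ring
  have hr1 : (0 : ℝ) < r + 1 := by linarith
  induction m generalizing m' k k' with
  | zero =>
    rcases m' with _ | m'
    · rw [T1_zero le_rfl zero_le_one hr, hκ]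
      by_cases h : k = k'
      · subst h
        rw [if_pos rfl, if_pos ⟨rfl, rfl⟩]
        unfold th
        simp
      · rw [if_neg h, if_neg (by omega)]
    · have hp : (0 : ℝ) < Real.sqrt ((m' : ℝ) + 1) := Real.sqrt_pos.mpr (by positivity)
      apply mul_left_cancel₀ hp.ne'
      rw [T1_rec' le_rfl zero_le_one hr, hκ, if_neg (by omega)]
      simp
  | succ m ih =>
    have hp : (0 : ℝ) < Real.sqrt ((m : ℝ) + 1) := Real.sqrt_pos.mpr (by positivity)
    apply mul_left_cancel₀ hp.ne'
    rw [T1_rec le_rfl zero_le_one hr, hκ, ih, ih]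
    rcases m' with _ | j
    · simp
    · have e : j + 1 - 1 = j := rfl
      rw [e]
      by_cases h : m = j ∧ k = k'
      · obtain ⟨h1, h2⟩ := h
        subst h1; subst h2
        have e2 : r + 1 - 1 = r := by ring
        simp only [Real.sqrt_zero, zero_div, zero_mul, zero_add, and_self, if_true, e2]
        rw [th_succ hr]
        push_cast
        ring
      · rw [if_neg h, if_neg (show ¬ (m + 1 = j + 1 ∧ k = k') by omega)]
        simp

theorem Tv_zero_eta {s : Fin n → ℝ} (hs : ∀ j, 0 ≤ s j) (m m' k k' : Conf n) :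
    Tv 0 s m m' k k' = if m = m' ∧ k = k' then thv s m else 0 := by
  unfold Tv
  rw [Finset.prod_congr rfl fun j _ => T1_zero_eta (hs j) (m j) (m' j) (k j) (k' j)]
  rw [Finset.prod_ite_zero]
  by_cases h : m = m' ∧ k = k'
  · obtain ⟨h1, h2⟩ := h
    subst h1; subst h2
    simp [thv]
  · rw [if_neg h, if_neg]
    intro h'
    exact h ⟨funext fun j => (h' j (Finset.mem_univ j)).1,
      funext fun j => (h' j (Finset.mem_univ j)).2⟩

theorem cut_thE_zero {s : Fin n → ℝ} (hs : ∀ j, 0 ≤ s j) {M : ℕ}
    {ρ : Matrix (Cf n M) (Cf n M) ℂ} (ht : ρ.trace = 1) (X : ℕ) :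
    cut X (thE 0 s ρ) = Matrix.diagonal fun x : Ct n X => ((thv s x.1 : ℝ) : ℂ) := by
  have e : ∀ x y : Conf n, thE 0 s ρ x y = if x = y then ((thv s x : ℝ) : ℂ) else 0 := by
    intro x y
    unfold thE
    simp only [Tv_zero_eta hs]
    by_cases h : x = y
    · rw [if_pos h]
      have e1 : ∀ k : Cf n M, ∑ k', (((if x = y ∧ cv k = cv k' then thv s x else 0 : ℝ)) : ℂ) *
          ρ k k' = ((thv s x : ℝ) : ℂ) * ρ k k := by
        intro k
        rw [Finset.sum_eq_single k]
        · rw [if_pos ⟨h, rfl⟩]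
        · intro k' _ hk
          rw [if_neg]
          · simp
          · rintro ⟨-, h2⟩
            exact hk (Vale.Agent.P369V.cv_injective h2).symm
        · intro h; exact absurd (Finset.mem_univ _) h
      rw [Finset.sum_congr rfl fun k _ => e1 k, ← Finset.mul_sum]
      have : ∑ k, ρ k k = ρ.trace := rfl
      rw [this, ht, mul_one]
    · rw [if_neg h]
      refine Finset.sum_eq_zero fun c _ => Finset.sum_eq_zero fun d _ => ?_
      rw [if_neg fun h' => h h'.1]
      simp
  ext x y
  unfold cut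
  rw [e]
  by_cases h : x = y
  · subst h
    rw [if_pos rfl, Matrix.diagonal_apply_eq]
  · rw [if_neg (fun h' => h (Subtype.ext h')), Matrix.diagonal_apply_ne _ h]

theorem ent_diagonal {ι : Type} [Fintype ι] [DecidableEq ι] (d : ι → ℝ) :
    ent (Matrix.diagonal fun i => ((d i : ℝ) : ℂ)) = ∑ i, Real.negMulLog (d i) := by
  have hA : (Matrix.diagonal fun i => ((d i : ℝ) : ℂ)).IsHermitian := by
    rw [Matrix.IsHermitian, Matrix.diagonal_conjTranspose]
    congr 1
    funext i
    simp
  rw [P369A.ent_roots hA, Matrix.charpoly_diagonal, Polynomial.roots_prod]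
  · simp
  · exact Finset.prod_ne_zero_iff.2 fun i _ => Polynomial.X_sub_C_ne_zero _

theorem ThFd_zero (hn : 1 ≤ n) {s : Fin n → ℝ} (hs : ∀ j, 0 ≤ s j) : ThFd n 0 s := by
  intro M ρ hρ ht N _ hg NB _ hNB ε hε
  have e : (0 : ℝ) * N + (1 - 0) * NB = NB := by ring
  rw [e, ← hNB]
  have hH := Hs_thv hs
  have hsum : HasSum (fun k : Conf n => Real.negMulLog (thv s k)) (∑ j, P369.g (s j)) := by
    rw [← hH]
    unfold P369.Hs
    apply Summable.hasSum
    exact P369.summable_negMulLog_of_energy (E := fun k : Conf n => tot k)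
      (fun k => (thv_isProb hs).1 k)
      (fun k => (thv_isProb hs).le_one k) (thv_energy hs) (P369.summable_exp_tot n)
  have hlim := (show Tendsto (fun S : Finset (Conf n) => ∑ k ∈ S, Real.negMulLog (thv s k)) atTop
    (𝓝 (∑ j, P369.g (s j))) from hsum).comp (tendsto_tb n)
  filter_upwards [hlim.eventually (lt_mem_nhds (show ∑ j, P369.g (s j) - ε < ∑ j, P369.g (s j) by
    linarith))] with X hX
  rw [cut_thE_zero hs ht, ent_diagonal, sum_tb X (fun k => Real.negMulLog (thv s k))]
  exact hX.le

end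

end Vale.Agent.P369N
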