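import Vale.Agent.P369.H326.Phys6

/-!
The finite-dimensional theorem for nonnegative mean photon numbers from positive ones.
-/

namespace Vale.Agent.P369N

open Matrix Set Filter Topology
open scoped InnerProductSpace ComplexOrder
open Vale.Agent.P369 (Conf tot ampn ampn_hom)
open Vale.Agent.P369V (ent cutm cv Cf)
open Vale.Agent.P369T
open Vale.Agent.P369A (Ct cut)

noncomputable section

variable {n : ℕ}

theorem th_le_pow {a R : ℝ} (ha : 0 ≤ a) (haR : a ≤ R) (b : ℕ) : th a b ≤ (R / (R + 1)) ^ b := by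
  have h1 : a / (a + 1) ≤ R / (R + 1) := by
    rw [div_le_div_iff₀ (by linarith) (by linarith)]
    linarith
  have h2 : 0 ≤ a / (a + 1) := by positivity
  have h3 : (a / (a + 1)) ^ b ≤ (R / (R + 1)) ^ b := pow_le_pow_left₀ h2 h1 b
  have h4 : (a + 1)⁻¹ ≤ 1 := inv_le_one_of_one_le₀ (by linarith)
  have h5 : 0 ≤ (a / (a + 1)) ^ b := by positivity
  rw [th_eq ha]
  calc (a / (a + 1)) ^ b * (a + 1)⁻¹ ≤ (a / (a + 1)) ^ b * 1 := mul_le_mul_of_nonneg_left h4 h5
    _ ≤ _ := by rw [mul_one]; exact h3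

theorem th_le_th {a R : ℝ} (ha : 0 ≤ a) (haR : a ≤ R) (b : ℕ) : th a b ≤ (R + 1) * th R b := by
  refine (th_le_pow ha haR b).trans (le_of_eq ?_)
  have hR : 0 ≤ R := ha.trans haR
  rw [th_eq hR]
  field_simp

theorem thv_le_thv {a R : Fin n → ℝ} (ha : ∀ j, 0 ≤ a j) (haR : ∀ j, a j ≤ R j) (b : Conf n) :
    thv a b ≤ (∏ j, (R j + 1)) * thv R b := by
  unfold thv
  rw [← Finset.prod_mul_distrib]
  exact Finset.prod_le_prod (fun j _ => th_nonneg (ha j) _) fun j _ => th_le_th (ha j) (haR j) _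

theorem Tv_diag_le {η : ℝ} {a R : Fin n → ℝ} (h0 : 0 ≤ η) (h1 : η ≤ 1) (ha : ∀ j, 0 ≤ a j)
    (haR : ∀ j, a j ≤ R j) (m k : Conf n) :
    Tv η a m m k k ≤ (∏ j, (R j + 1)) * Tv η R m m k k := by
  refine hasSum_le (fun b => ?_) (kern_hasSum h0 h1 ha m k)
    ((kern_hasSum h0 h1 (fun j => (ha j).trans (haR j)) m k).mul_left _)
  have h2 := thv_le_thv ha haR b
  have h3 : 0 ≤ P369.kern η m k b :=
    (P369.kern_isKer (fun i j => (P369.hasSum_ker h0 h1 i j).tsum_eq) n).nonneg m k b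
  calc _ ≤ P369.kern η m k b * ((∏ j, (R j + 1)) * thv R b) := mul_le_mul_of_nonneg_left h2 h3
    _ = _ := by ring

theorem T1_tendsto {η r : ℝ} (h0 : 0 ≤ η) (h1 : η ≤ 1) (hr : 0 ≤ r) (m m' k k' : ℕ) :
    Tendsto (fun i : ℕ => T1 η (r + 1 / ((i : ℝ) + 1)) m m' k k') atTop
      (𝓝 (T1 η r m m' k k')) := by
  have hi : ∀ i : ℕ, 0 ≤ 1 / ((i : ℝ) + 1) ∧ 1 / ((i : ℝ) + 1) ≤ 1 := by
    intro i
    have : (0 : ℝ) ≤ i := Nat.cast_nonneg i
    constructor
    · positivity
    · rw [div_le_one (by positivity)]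
      linarith
  have hlim : Tendsto (fun i : ℕ => r + 1 / ((i : ℝ) + 1)) atTop (𝓝 r) := by
    have := (tendsto_one_div_add_atTop_nhds_zero_nat (𝕜 := ℝ)).const_add r
    rwa [add_zero] at this
  unfold T1
  refine tendsto_tsum_of_dominated_convergence (bound := fun b => ((r + 1) / (r + 1 + 1)) ^ b)
    ?_ ?_ ?_
  · exact summable_geometric_of_lt_one (by positivity) (by
      rw [div_lt_one (by linarith)]
      linarith)
  · intro b
    refine Tendsto.mul_const _ ?_
    have hc : ContinuousAt (fun a : ℝ => th a b) r := by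
      unfold th
      refine ContinuousAt.div (by fun_prop) (by fun_prop) ?_
      positivity
    exact hc.tendsto.comp hlim
  · refine Eventually.of_forall fun i b => ?_
    obtain ⟨h2, h3⟩ := hi i
    have h4 : 0 ≤ r + 1 / ((i : ℝ) + 1) := by linarith
    rw [norm_mul, Real.norm_of_nonneg (th_nonneg h4 b), norm_mul, Real.norm_eq_abs,
      Real.norm_eq_abs]
    have h5 := abs_amp_le h0 h1 m (k + b - m) k b
    have h6 := abs_amp_le h0 h1 m' (k + b - m) k' b
    have h7 : |P369.amp (Real.sqrt η) (Real.sqrt (1 - η)) m (k + b - m) k b| *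
        |P369.amp (Real.sqrt η) (Real.sqrt (1 - η)) m' (k + b - m) k' b| ≤ 1 * 1 :=
      mul_le_mul h5 h6 (abs_nonneg _) zero_le_one
    calc _ ≤ th (r + 1 / ((i : ℝ) + 1)) b * (1 * 1) :=
          mul_le_mul_of_nonneg_left h7 (th_nonneg h4 b)
      _ ≤ _ := by
        rw [mul_one, mul_one]
        exact th_le_pow h4 (by linarith) b

theorem Tv_tendsto {η : ℝ} {s : Fin n → ℝ} (h0 : 0 ≤ η) (h1 : η ≤ 1) (hs : ∀ j, 0 ≤ s j)
    (m m' k k' : Conf n) :
    Tendsto (fun i : ℕ => Tv η (fun j => s j + 1 / ((i : ℝ) + 1)) m m' k k') atTop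
      (𝓝 (Tv η s m m' k k')) := by
  unfold Tv
  exact tendsto_finsetProd _ fun j _ => T1_tendsto h0 h1 (hs j) _ _ _ _

theorem thE_tendsto {η : ℝ} {s : Fin n → ℝ} (h0 : 0 ≤ η) (h1 : η ≤ 1) (hs : ∀ j, 0 ≤ s j)
    {M : ℕ} (ρ : Matrix (Cf n M) (Cf n M) ℂ) (x y : Conf n) :
    Tendsto (fun i : ℕ => thE η (fun j => s j + 1 / ((i : ℝ) + 1)) ρ x y) atTop
      (𝓝 (thE η s ρ x y)) := by
  unfold thE
  refine tendsto_finsetSum _ fun k _ => tendsto_finsetSum _ fun k' _ => Tendsto.mul_const _ ?_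
  exact (Complex.continuous_ofReal.tendsto _).comp (Tv_tendsto h0 h1 hs x y _ _)

/-- the diagonal of the output of a finite matrix -/
theorem thE_diag {η : ℝ} {s : Fin n → ℝ} {M : ℕ} (ρ : Matrix (Cf n M) (Cf n M) ℂ) (x : Conf n) :
    (thE η s ρ x x).re = ∑ k : Cf n M, Tv η s x x (cv k) (cv k) * (ρ k k).re := by
  unfold thE
  rw [Complex.re_sum]
  refine Finset.sum_congr rfl fun k _ => ?_
  rw [Finset.sum_eq_single k]
  · rw [Complex.re_ofReal_mul]
  · intro k' _ hk
    rw [Tv_diag_ne]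
    · simp
    · intro h
      exact hk (Vale.Agent.P369V.cv_injective h).symm
  · intro h; exact absurd (Finset.mem_univ _) h

/-- the energy of the output of a finite matrix -/
theorem thE_energy {η : ℝ} {s : Fin n → ℝ} (h0 : 0 ≤ η) (h1 : η ≤ 1) (hs : ∀ j, 0 ≤ s j)
    {M : ℕ} (ρ : Matrix (Cf n M) (Cf n M) ℂ) :
    Summable fun x : Conf n => tot x * (thE η s ρ x x).re := by
  have h2 : ∀ k : Conf n, Summable fun x : Conf n => tot x * Tv η s x x k k := by
    intro k
    have hp : P369.IsProb (fun m : Conf n => if m = k then (1 : ℝ) else 0) := by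
      constructor
      · intro m
        dsimp only
        split_ifs <;> norm_num
      · exact hasSum_ite_eq k 1
    have hpE : Summable fun m : Conf n => (∑ j, (m j : ℝ)) * (if m = k then (1 : ℝ) else 0) := by
      refine summable_of_ne_finset_zero (s := {k}) fun m hm => ?_
      rw [if_neg (by simpa using hm), mul_zero]
    have h3 := P369.outn_energy h0 h1 hp (thv_isProb hs) hpE (thv_energy hs)
    refine h3.congr fun x => ?_
    have h4 := Tv_diag_hasSum h0 h1 hs hp x
    have h5 : HasSum (fun m : Conf n => Tv η s x x m m * (if m = k then (1 : ℝ) else 0))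
        (Tv η s x x k k) := by
      have := hasSum_ite_eq k (Tv η s x x k k)
      refine this.congr_fun fun m => ?_
      by_cases h : m = k
      · subst h; simp
      · simp [h]
    rw [h4.unique h5]
    rfl
  have h3 : Summable fun x : Conf n => ∑ k : Cf n M, (tot x * Tv η s x x (cv k) (cv k)) *
      (ρ k k).re := summable_sum fun k _ => (h2 (cv k)).mul_right _
  refine h3.congr fun x => ?_
  rw [thE_diag, Finset.mul_sum]
  exact Finset.sum_congr rfl fun k _ => by ring

/-- from positive to nonnegative mean photon numbers -/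
theorem ThFd_of_pos (hn : 1 ≤ n) {η : ℝ} (h0 : 0 ≤ η) (h1 : η ≤ 1)
    (h : ∀ s : Fin n → ℝ, (∀ j, 0 < s j) → ThFd n η s) {s : Fin n → ℝ} (hs : ∀ j, 0 ≤ s j) :
    ThFd n η s := by
  intro M ρ hρ ht N hN hg NB hNB hsNB ε hε
  have hn' : (0 : ℝ) < n := by exact_mod_cast hn
  set si : ℕ → Fin n → ℝ := fun i j => s j + 1 / ((i : ℝ) + 1) with hsi
  have hi : ∀ i : ℕ, 0 < 1 / ((i : ℝ) + 1) ∧ 1 / ((i : ℝ) + 1) ≤ 1 := by
    intro i
    have : (0 : ℝ) ≤ i := Nat.cast_nonneg i
    constructor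
    · positivity
    · rw [div_le_one (by positivity)]
      linarith
  have hsi0 : ∀ i j, 0 < si i j := fun i j => by
    have := (hi i).1
    have := hs j
    simp only [hsi]
    linarith
  set R : Fin n → ℝ := fun j => s j + 1 with hR
  have hR0 : ∀ j, 0 ≤ R j := fun j => by
    have := hs j
    simp only [hR]
    linarith
  have hsiR : ∀ i j, si i j ≤ R j := fun i j => by
    have := (hi i).2
    simp only [hsi, hR]
    linarith
  set c : ℝ := ∏ j, (R j + 1) with hc
  have hc0 : 0 ≤ c := Finset.prod_nonneg fun j _ => by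
    have := hR0 j
    linarith
  have hρd : ∀ k, 0 ≤ (ρ k k).re := fun k =>
    (Complex.le_def.1 (hρ.posSemidef.diag_nonneg (i := k))).1
  set D : Conf n → ℝ := fun x => c * (thE η R ρ x x).re with hD
  have hdle : ∀ i x, (thE η (si i) ρ x x).re ≤ D x := by
    intro i x
    simp only [hD]
    rw [thE_diag, thE_diag, Finset.mul_sum]
    refine Finset.sum_le_sum fun k _ => ?_
    have h2 := Tv_diag_le h0 h1 (fun j => (hsi0 i j).le) (hsiR i) x (cv k)
    have h3 := mul_le_mul_of_nonneg_right h2 (hρd k)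
    rw [← hc] at h3
    linarith
  have hD0 : ∀ x, 0 ≤ D x := by
    intro x
    simp only [hD]
    rw [thE_diag]
    exact mul_nonneg hc0 (Finset.sum_nonneg fun k _ =>
      mul_nonneg (Tv_diag_nonneg h0 h1 hR0 x _) (hρd k))
  set W : Conf n → ℝ := fun k => tot k * D k + Real.exp (-tot k) with hW
  have hWs : Summable W := by
    refine Summable.add ?_ (P369.summable_exp_tot n)
    refine ((thE_energy h0 h1 hR0 ρ).mul_left c).congr fun x => ?_
    simp only [hD]
    ring
  -- entropy photon number of the perturbed second inputs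
  have hNBi : ∀ i, ∃ NBi : ℝ, 0 ≤ NBi ∧ ∑ j, P369.g (si i j) = n * P369.g NBi ∧ NB ≤ NBi := by
    intro i
    have hsum0 : ∑ j, P369.g (s j) ≤ ∑ j, P369.g (si i j) := by
      refine Finset.sum_le_sum fun j _ => ?_
      rw [P369.g_le_iff (hs j) (hsi0 i j).le]
      have := (hi i).1
      simp only [hsi]
      linarith
    have hgNB : 0 ≤ P369.g NB := by
      rw [← P369.g_zero]
      rw [P369.g_le_iff le_rfl hNB]
      exact hNB
    have h2 : 0 ≤ (∑ j, P369.g (si i j)) / n := by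
      refine div_nonneg ?_ hn'.le
      rw [hsNB] at hsum0
      exact (mul_nonneg hn'.le hgNB).trans hsum0
    obtain ⟨x, hx, hxe⟩ := P369.exists_g h2
    have e : ∑ j, P369.g (si i j) = n * P369.g x := by
      rw [hxe]
      field_simp
    refine ⟨x, hx, e, ?_⟩
    rw [← P369.g_le_iff hNB hx]
    rw [hsNB, e] at hsum0
    exact le_of_mul_le_mul_left hsum0 hn'
  have hη1 : 0 ≤ 1 - η := by linarith
  -- the bound at every cutoff
  have key : ∀ Y, n * P369.g (η * N + (1 - η) * NB) - ε / 2 ≤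
      ent (cut Y (thE η s ρ)) + (∑' k, W k - ∑ k ∈ tb n Y, W k) := by
    intro Y
    have hlim : Tendsto (fun i : ℕ => ent (cut Y (thE η (si i) ρ)) +
        (∑' k, W k - ∑ k ∈ tb n Y, W k)) atTop
        (𝓝 (ent (cut Y (thE η s ρ)) + (∑' k, W k - ∑ k ∈ tb n Y, W k))) := by
      refine Tendsto.add_const _ ?_
      refine P369V.g4_tendsto_ent
        (fun i => thE_posSemidef h0 h1 (fun j => (hsi0 i j).le) hρ.posSemidef Y)
        (thE_posSemidef h0 h1 hs hρ.posSemidef Y) ?_
      exact tendsto_pi_nhds.2 fun x => tendsto_pi_nhds.2 fun y => thE_tendsto h0 h1 hs ρ x.1 y.1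
    refine ge_of_tendsto' hlim fun i => ?_
    obtain ⟨NBi, hNBi0, hsum, hle⟩ := hNBi i
    obtain ⟨X, hX, hYX⟩ := ((h (si i) (hsi0 i) M ρ hρ ht N hN hg NBi hNBi0 hsum (ε / 2)
      (by linarith)).and (eventually_ge_atTop Y)).exists
    have h2 := tb_tail hD0 hW hWs hYX
      (thE_posSemidef h0 h1 (fun j => (hsi0 i j).le) hρ.posSemidef X) (hdle i)
    have h3 : P369.g (η * N + (1 - η) * NB) ≤ P369.g (η * N + (1 - η) * NBi) := by
      rw [P369.g_le_iff (by positivity) (by positivity)]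
      have := mul_le_mul_of_nonneg_left hle hη1
      linarith
    have h4 := mul_le_mul_of_nonneg_left h3 hn'.le
    linarith
  have htail : Tendsto (fun Y => ∑' k, W k - ∑ k ∈ tb n Y, W k) atTop
      (𝓝 (∑' k, W k - ∑' k, W k)) :=
    tendsto_const_nhds.sub ((show Tendsto (fun S : Finset (Conf n) => ∑ k ∈ S, W k) atTop
      (𝓝 (∑' k, W k)) from hWs.hasSum).comp (tendsto_tb n))
  rw [sub_self] at htail
  filter_upwards [htail.eventually (gt_mem_nhds (show (0 : ℝ) < ε / 2 by linarith))] with X hX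
  have := key X
  linarith

end

end Vale.Agent.P369N
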