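import Vale.Agent.P369.H326.Phys7

/-!
The entropy photon-number inequality for a product of thermal environments, from the
finite-dimensional theorem for `0 < η < 1` and positive mean photon numbers.
-/

namespace Vale.Agent.P369N

open Matrix Set Filter Topology
open scoped InnerProductSpace ComplexOrder
open Vale.Agent.P369 (Conf tot ampn ampn_hom)
open Vale.Agent.P369.Sys
open Vale.Agent.P369V (ent cutm cv Cf)
open Vale.Agent.P369T
open Vale.Agent.P369A (Ct cut)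

noncomputable section

variable {n : ℕ} {H K : Type} [NormedAddCommGroup H] [InnerProductSpace ℂ H] [CompleteSpace H]
  [NormedAddCommGroup K] [InnerProductSpace ℂ K] [CompleteSpace K]

/-- all parameters -/
theorem ThFd_all (hn : 1 ≤ n)
    (hfd : ∀ η : ℝ, 0 < η → η < 1 → ∀ s : Fin n → ℝ, (∀ j, 0 < s j) → ThFd n η s)
    {η : ℝ} (h0 : 0 ≤ η) (h1 : η ≤ 1) {s : Fin n → ℝ} (hs : ∀ j, 0 ≤ s j) : ThFd n η s := by
  rcases h0.eq_or_lt with h | h0'
  · rw [← h]
    exact ThFd_zero hn hs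
  rcases h1.eq_or_lt with h | h1'
  · rw [h]
    exact ThFd_one hn hs
  exact ThFd_of_pos hn h0 h1 (fun s hs => hfd η h0' h1' s hs) hs

/-- the entropy photon-number inequality for a product of thermal environments -/
theorem epni_thv (hn : 1 ≤ n)
    (hfd : ∀ η : ℝ, 0 < η → η < 1 → ∀ s : Fin n → ℝ, (∀ j, 0 < s j) → ThFd n η s)
    {η : ℝ} (h0 : 0 ≤ η) (h1 : η ≤ 1) (e : Conf n → H) (he : IsNumberBasis e)
    (f : Conf n → Conf n → K) (hf : IsNumberBasis fun x : Conf n × Conf n => f x.1 x.2)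
    (ρA ρB : H →L[ℂ] H) (hA : IsState e ρA) (eA : FiniteEnergy e ρA)
    {s : Fin n → ℝ} (hs : ∀ j, 0 ≤ s j) (hB : ∀ k, ρB (e k) = (thv s k : ℂ) • e k) :
    (∃ ρC : H →L[ℂ] H, IsOutput η e f ρA ρB ρC) ∧
    ∀ ρC : H →L[ℂ] H, IsOutput η e f ρA ρB ρC → IsState e ρC ∧ FiniteEnergy e ρC ∧
      η * photonNumber e ρA + (1 - η) * photonNumber e ρB ≤ photonNumber e ρC := by
  obtain ⟨hex, hall⟩ := phys_setup h0 h1 hs he hf hA eA hB
  refine ⟨hex, fun ρC hO => ?_⟩
  obtain ⟨hC, eC, hout⟩ := hall ρC hO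
  obtain ⟨hNB, hsNB⟩ := photonNumber_thv hn hs he (isState_thv hs he hB) hB
  exact ⟨hC, eC, phys_state hn h0 h1 hs (ThFd_all hn hfd h0 h1 hs) he hA eA hC eC hout hNB hsNB⟩

end

end Vale.Agent.P369N
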